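import Crest.Agent.R39.Defs

/-! Row 39, task BASIC. -/

set_option autoImplicit false

open Finset

namespace Crest.Agent.R39

noncomputable section

open Classical

namespace BasicAux

section Gen
variable {X T : Type} [Fintype X] [Fintype T] (σ : Equiv.Perm X) (f : X → T)

omit [Fintype T] in
theorem fib_eq (h3 : ∀ x, σ (σ (σ x)) = x) (hf : ∀ x, f (σ x) = f x)
    (hfib : ∀ x y, f x = f y → y = x ∨ y = σ x ∨ y = σ (σ x)) (x : X) :
    (univ.filter fun y => f y = f x) = {x, σ x, σ (σ x)} := by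
  have _ := h3
  ext y
  simp only [mem_filter, mem_univ, true_and, mem_insert, mem_singleton]
  constructor
  · intro h; exact hfib x y h.symm
  · rintro (rfl | rfl | rfl)
    · rfl
    · exact hf x
    · rw [hf, hf]

omit [Fintype T] in
theorem sum_fib (h3 : ∀ x, σ (σ (σ x)) = x) (hne : ∀ x, σ x ≠ x) (hf : ∀ x, f (σ x) = f x)
    (hfib : ∀ x y, f x = f y → y = x ∨ y = σ x ∨ y = σ (σ x)) (η : X → ℝ) (x : X) :
    ∑ y ∈ univ.filter (fun y => f y = f x), η y = η x + η (σ x) + η (σ (σ x)) := by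
  have a1 : x ≠ σ x := (hne x).symm
  have a2 : σ x ≠ σ (σ x) := (hne _).symm
  have a3 : x ≠ σ (σ x) := by
    intro h
    have := hne (σ (σ x))
    rw [h3] at this
    exact this h
  rw [fib_eq σ f h3 hf hfib, sum_insert (by simp [a1, a3]), sum_insert (by simp [a2]),
    sum_singleton, add_assoc]

theorem sum_comp3 (h3 : ∀ x, σ (σ (σ x)) = x) (hne : ∀ x, σ x ≠ x) (hf : ∀ x, f (σ x) = f x)
    (hfib : ∀ x y, f x = f y → y = x ∨ y = σ x ∨ y = σ (σ x)) (hs : Function.Surjective f)
    (g : T → ℝ) : ∑ x, g (f x) = 3 * ∑ t, g t := by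
  rw [← sum_fiberwise (s := univ) (g := f), mul_sum]
  refine sum_congr rfl fun t _ => ?_
  obtain ⟨x, rfl⟩ := hs t
  rw [sum_fib σ f h3 hne hf hfib (fun y => g (f y)) x, hf, hf, hf]
  ring

theorem sum_mul_fib (h : T → ℝ) (η : X → ℝ) :
    ∑ t, h t * ∑ y ∈ univ.filter (fun y => f y = t), η y = ∑ x, h (f x) * η x := by
  rw [← sum_fiberwise (s := univ) (g := f)]
  refine sum_congr rfl fun t _ => ?_
  rw [mul_sum]
  refine sum_congr rfl fun y hy => ?_
  rw [(mem_filter.mp hy).2]

end Gen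

variable (H : HM)

theorem sumB (g : H.B → ℝ) : ∑ x, g (H.bl x) = 3 * ∑ t, g t :=
  sum_comp3 H.β H.bl H.β3 H.βne H.bl_β H.bl_fib H.bl_surj g

theorem sumW (g : H.W → ℝ) : ∑ x, g (H.wh x) = 3 * ∑ t, g t :=
  sum_comp3 H.ω H.wh H.ω3 H.ωne H.wh_ω H.wh_fib H.wh_surj g

theorem cardX : Fintype.card H.X = 3 * Fintype.card H.B := by
  have := sumB H (fun _ => 1)
  simp only [sum_const, card_univ, nsmul_eq_mul, mul_one] at this
  exact_mod_cast this

theorem cardW : Fintype.card H.W = Fintype.card H.B := by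
  have := sumW H (fun _ => 1)
  simp only [sum_const, card_univ, nsmul_eq_mul, mul_one] at this
  have h2 : Fintype.card H.X = 3 * Fintype.card H.W := by exact_mod_cast this
  have := cardX H
  omega

theorem count (Db : Finset H.B) (Dw : Finset H.W) :
    3 * #Db + H.nw Db Dw = 3 * #Dw + H.nb Db Dw := by
  have h1 := sumB H (fun t => if t ∈ Db then 1 else 0)
  have h2 := sumW H (fun t => if t ∈ Dw then 1 else 0)
  simp only [sum_ite_mem, univ_inter, sum_const, nsmul_eq_mul, mul_one] at h1 h2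
  have h3 : (H.nb Db Dw : ℝ) = ∑ x, if H.bl x ∈ Db ∧ H.wh x ∉ Dw then (1 : ℝ) else 0 := by
    unfold HM.nb
    rw [sum_boole]
  have h4 : (H.nw Db Dw : ℝ) = ∑ x, if H.bl x ∉ Db ∧ H.wh x ∈ Dw then (1 : ℝ) else 0 := by
    unfold HM.nw
    rw [sum_boole]
  have : (3 : ℝ) * #Db + H.nw Db Dw = 3 * #Dw + H.nb Db Dw := by
    rw [← h1, ← h2, h3, h4, ← sum_add_distrib, ← sum_add_distrib]
    refine sum_congr rfl fun x _ => ?_
    by_cases a : H.bl x ∈ Db <;> by_cases b : H.wh x ∈ Dw <;> simp [a, b]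
  exact_mod_cast this

theorem orth (hb : H.B → ℝ) (hw : H.W → ℝ) (g : H.V → ℝ) :
    ∑ x, (hb (H.bl x) - hw (H.wh x)) * (g (H.v (H.β x)) - g (H.v x)) = 0 := by
  have h1 : ∑ x, hb (H.bl x) * g (H.v (H.β x)) = ∑ x, hb (H.bl x) * g (H.v x) := by
    rw [← Equiv.sum_comp H.β (fun x => hb (H.bl x) * g (H.v x))]
    simp only [H.bl_β]
  have h2 : ∑ x, hw (H.wh x) * g (H.v (H.β x)) = ∑ x, hw (H.wh x) * g (H.v x) := by
    rw [← Equiv.sum_comp H.ω (fun x => hw (H.wh x) * g (H.v (H.β x)))]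
    simp only [H.wh_ω, H.v_φ]
  have : ∀ x, (hb (H.bl x) - hw (H.wh x)) * (g (H.v (H.β x)) - g (H.v x)) =
      (hb (H.bl x) * g (H.v (H.β x)) - hb (H.bl x) * g (H.v x)) -
        (hw (H.wh x) * g (H.v (H.β x)) - hw (H.wh x) * g (H.v x)) := fun x => by ring
  simp only [this, sum_sub_distrib, h1, h2, sub_self]

theorem kerD (hc : H.Conn3) (hb : H.B → ℝ) (hw : H.W → ℝ) (h : ∀ x, hb (H.bl x) = hw (H.wh x)) :
    ∃ c, (∀ t, hb t = c) ∧ ∀ w, hw w = c := by
  obtain ⟨⟨x0⟩, h3⟩ := hc
  refine ⟨hb (H.bl x0), ?_⟩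
  by_contra hne
  have := h3 (univ.filter fun t => hb t = hb (H.bl x0)) (univ.filter fun w => hw w = hb (H.bl x0))
    (Or.inl ⟨H.bl x0, by simp⟩) (by
      by_contra h'
      push Not at h'
      apply hne
      refine ⟨fun t => ?_, fun w => ?_⟩
      · have : t ∈ univ.filter fun t => hb t = hb (H.bl x0) := by rw [h'.1]; exact mem_univ _
        exact (mem_filter.mp this).2
      · have : w ∈ univ.filter fun w => hw w = hb (H.bl x0) := by rw [h'.2]; exact mem_univ _
        exact (mem_filter.mp this).2)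
  have e1 : H.nb (univ.filter fun t => hb t = hb (H.bl x0))
      (univ.filter fun w => hw w = hb (H.bl x0)) = 0 := by
    unfold HM.nb
    rw [card_eq_zero, filter_eq_empty_iff]
    intro x _
    simp only [mem_filter, mem_univ, true_and, ← h x]
    tauto
  have e2 : H.nw (univ.filter fun t => hb t = hb (H.bl x0))
      (univ.filter fun w => hw w = hb (H.bl x0)) = 0 := by
    unfold HM.nw
    rw [card_eq_zero, filter_eq_empty_iff]
    intro x _
    simp only [mem_filter, mem_univ, true_and, ← h x]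
    tauto
  omega

theorem kerδ (hc : H.Conn3) (g : H.V → ℝ) (h : ∀ x, g (H.v (H.β x)) = g (H.v x)) (a a' : H.V) :
    g a = g a' := by
  have hω : ∀ x, g (H.v (H.ω x)) = g (H.v x) := fun x => by rw [← h, H.v_φ]
  choose sb hsb using H.bl_surj
  choose sw hsw using H.wh_surj
  have e1 : ∀ x, g (H.v (sb (H.bl x))) = g (H.v x) := by
    intro x
    rcases H.bl_fib x (sb (H.bl x)) (hsb _).symm with e | e | e <;> rw [e]
    · exact h x
    · rw [h, h]
  have e2 : ∀ x, g (H.v (sw (H.wh x))) = g (H.v x) := by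
    intro x
    rcases H.wh_fib x (sw (H.wh x)) (hsw _).symm with e | e | e <;> rw [e]
    · exact hω x
    · rw [hω, hω]
  obtain ⟨c, hc1, -⟩ := kerD H hc (fun t => g (H.v (sb t))) (fun w => g (H.v (sw w)))
    (fun x => by rw [e1, e2])
  obtain ⟨x, rfl⟩ := H.v_surj a
  obtain ⟨y, rfl⟩ := H.v_surj a'
  rw [← e1 x, ← e1 y, hc1, hc1]

/-- the coboundary of the primal graph -/
def D : ((H.B → ℝ) × (H.W → ℝ)) →ₗ[ℝ] (H.X → ℝ) where
  toFun h := fun x => h.1 (H.bl x) - h.2 (H.wh x)
  map_add' h h' := by funext x; simp only [Prod.fst_add, Prod.snd_add, Pi.add_apply]; ring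
  map_smul' c h := by
    funext x
    simp only [Prod.smul_fst, Prod.smul_snd, Pi.smul_apply, smul_eq_mul, RingHom.id_apply]; ring

/-- the coboundary of the dual graph -/
def δ : (H.V → ℝ) →ₗ[ℝ] (H.X → ℝ) where
  toFun g := fun x => g (H.v (H.β x)) - g (H.v x)
  map_add' h h' := by funext x; simp only [Pi.add_apply]; ring
  map_smul' c h := by
    funext x
    simp only [Pi.smul_apply, smul_eq_mul, RingHom.id_apply]; ring

theorem rank_ge {E F : Type} [AddCommGroup E] [Module ℝ E] [FiniteDimensional ℝ E]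
    [AddCommGroup F] [Module ℝ F] (L : E →ₗ[ℝ] F) (e : E) (h : ∀ y, L y = 0 → ∃ c : ℝ, y = c • e) :
    Module.finrank ℝ E ≤ Module.finrank ℝ (LinearMap.range L) + 1 := by
  have h1 := L.finrank_range_add_finrank_ker
  have h2 : LinearMap.ker L ≤ Submodule.span ℝ {e} := by
    intro y hy
    obtain ⟨c, rfl⟩ := h y hy
    exact Submodule.smul_mem _ _ (Submodule.mem_span_singleton_self e)
  have h3 := Submodule.finrank_mono h2
  have h4 : Module.finrank ℝ (Submodule.span ℝ ({e} : Set E)) ≤ 1 := by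
    have := finrank_span_le_card (R := ℝ) ({e} : Set E)
    simpa using this
  omega

theorem rankD (hc : H.Conn3) :
    2 * Fintype.card H.B ≤ Module.finrank ℝ (LinearMap.range (D H)) + 1 := by
  have := rank_ge (D H) (fun _ => 1, fun _ => 1) (by
    intro y hy
    obtain ⟨c, h1, h2⟩ := kerD H hc y.1 y.2 (fun x => sub_eq_zero.mp (congrFun hy x))
    refine ⟨c, Prod.ext (funext fun t => ?_) (funext fun t => ?_)⟩
    · simp [h1]
    · simp [h2])
  rw [Module.finrank_prod, Module.finrank_fintype_fun_eq_card, Module.finrank_fintype_fun_eq_card,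
    cardW] at this
  omega

theorem rankδ (hc : H.Conn3) :
    Fintype.card H.V ≤ Module.finrank ℝ (LinearMap.range (δ H)) + 1 := by
  obtain ⟨x0⟩ := hc.1
  have := rank_ge (δ H) (fun _ => 1) (by
    intro y hy
    refine ⟨y (H.v x0), funext fun t => ?_⟩
    simp [kerδ H hc y (fun x => sub_eq_zero.mp (congrFun hy x)) t (H.v x0)])
  rwa [Module.finrank_fintype_fun_eq_card] at this

theorem sq_zero {X : Type} [Fintype X] (z : X → ℝ) (h : ∑ x, z x * z x = 0) : z = 0 := by
  funext x
  have := (sum_eq_zero_iff_of_nonneg (fun x _ => mul_self_nonneg (z x))).mp h x (mem_univ _)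
  exact mul_self_eq_zero.mp this

theorem orth' (h : (H.B → ℝ) × (H.W → ℝ)) (g : H.V → ℝ) : ∑ x, D H h x * δ H g x = 0 :=
  orth H h.1 h.2 g

theorem disj : Disjoint (LinearMap.range (D H)) (LinearMap.range (δ H)) := by
  rw [Submodule.disjoint_def]
  rintro z ⟨h, hh⟩ ⟨g, hg⟩
  apply sq_zero
  have := orth' H h g
  rwa [hh, hg] at this

theorem cardV (hc : H.Conn3) : Fintype.card H.V ≤ Fintype.card H.B + 2 := by
  have h1 := Submodule.finrank_add_finrank_le_of_disjoint (disj H)
  rw [Module.finrank_fintype_fun_eq_card, cardX] at h1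
  have := rankD H hc
  have := rankδ H hc
  omega

theorem cyc (hc : H.Conn3) (hp : H.Planar) (z : H.X → ℝ)
    (hz : ∀ g : H.V → ℝ, ∑ x, z x * (g (H.v (H.β x)) - g (H.v x)) = 0) :
    ∃ (hb : H.B → ℝ) (hw : H.W → ℝ), ∀ x, z x = hb (H.bl x) - hw (H.wh x) := by
  have h1 : LinearMap.range (D H) ⊔ LinearMap.range (δ H) = ⊤ := by
    apply Submodule.eq_top_of_disjoint _ _ _ (disj H)
    rw [Module.finrank_fintype_fun_eq_card, cardX]
    have := rankD H hc
    have := rankδ H hc
    unfold HM.Planar at hp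
    omega
  have h2 : z ∈ LinearMap.range (D H) ⊔ LinearMap.range (δ H) := by rw [h1]; trivial
  obtain ⟨p, ⟨h, rfl⟩, q, ⟨g, rfl⟩, hpq⟩ := Submodule.mem_sup.mp h2
  have h3 : δ H g = 0 := by
    apply sq_zero
    have a1 : ∑ x, z x * δ H g x = 0 := hz g
    have a2 := orth' H h g
    rw [← hpq] at a1
    simp only [Pi.add_apply, add_mul, sum_add_distrib] at a1
    linarith
  rw [h3, add_zero] at hpq
  exact ⟨h.1, h.2, fun x => by rw [← hpq]; rfl⟩

theorem noloop (hc : H.Conn3) (hp : H.Planar) (x0 : H.X) : H.v (H.β x0) ≠ H.v x0 := by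
  intro h0
  obtain ⟨hb, hw, h⟩ := cyc H hc hp (fun x => if x = x0 then 1 else 0) (by
    intro g
    simp [h0])
  have hx0 : hw (H.wh x0) ≠ hb (H.bl x0) := by
    have := h x0
    simp only [if_true] at this
    intro e
    rw [e] at this
    norm_num at this
  have hx : ∀ x, x ≠ x0 → hb (H.bl x) = hw (H.wh x) := by
    intro x hx
    have := h x
    simp only [if_neg hx] at this
    linarith
  have := hc.2 (univ.filter fun t => hb t = hb (H.bl x0)) (univ.filter fun w => hw w = hb (H.bl x0))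
    (Or.inl ⟨H.bl x0, by simp⟩) (Or.inr (by
      intro h'
      have : H.wh x0 ∈ univ.filter fun w => hw w = hb (H.bl x0) := by rw [h']; exact mem_univ _
      exact hx0 (mem_filter.mp this).2))
  have e1 : H.nb (univ.filter fun t => hb t = hb (H.bl x0))
      (univ.filter fun w => hw w = hb (H.bl x0)) ≤ 1 := by
    unfold HM.nb
    refine le_trans (card_le_card (t := {x0}) fun x hx' => ?_) (by simp)
    simp only [mem_filter, mem_univ, true_and] at hx'
    rw [mem_singleton]
    by_contra hne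
    exact hx'.2 (by rw [← hx x hne]; exact hx'.1)
  have e2 : H.nw (univ.filter fun t => hb t = hb (H.bl x0))
      (univ.filter fun w => hw w = hb (H.bl x0)) ≤ 1 := by
    unfold HM.nw
    refine le_trans (card_le_card (t := {x0}) fun x hx' => ?_) (by simp)
    simp only [mem_filter, mem_univ, true_and] at hx'
    rw [mem_singleton]
    by_contra hne
    exact hx'.1 (by rw [hx x hne]; exact hx'.2)
  omega

/-- grounded Laplacian -/
def A (O : H.B) : ((H.B → ℝ) × (H.W → ℝ)) →ₗ[ℝ] ((H.B → ℝ) × (H.W → ℝ)) where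
  toFun h := (fun t => ∑ y ∈ univ.filter (fun y => H.bl y = t), D H h y +
      (if t = O then h.1 O else 0), fun w => -∑ y ∈ univ.filter (fun y => H.wh y = w), D H h y)
  map_add' h h' := by
    refine Prod.ext (funext fun t => ?_) (funext fun t => ?_)
    · simp only [map_add, Pi.add_apply, sum_add_distrib, Prod.fst_add]
      split_ifs <;> ring
    · simp only [map_add, Pi.add_apply, sum_add_distrib, Prod.snd_add]
      ring
  map_smul' c h := by
    refine Prod.ext (funext fun t => ?_) (funext fun t => ?_)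
    · simp only [map_smul, Pi.smul_apply, smul_eq_mul, ← mul_sum, Prod.smul_fst, RingHom.id_apply]
      split_ifs <;> ring
    · simp only [map_smul, Pi.smul_apply, smul_eq_mul, ← mul_sum, Prod.smul_snd, RingHom.id_apply]
      ring

theorem A_inj (hc : H.Conn3) (O : H.B) : Function.Injective (A H O) := by
  rw [← LinearMap.ker_eq_bot, LinearMap.ker_eq_bot']
  intro h hh
  have a1 : ∀ t, ∑ y ∈ univ.filter (fun y => H.bl y = t), D H h y +
      (if t = O then h.1 O else 0) = 0 := fun t => congrFun (congrArg Prod.fst hh) t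
  have a2 : ∀ w, -∑ y ∈ univ.filter (fun y => H.wh y = w), D H h y = 0 :=
    fun t => congrFun (congrArg Prod.snd hh) t
  have b1 : ∑ x, h.1 (H.bl x) * D H h x + h.1 O * h.1 O = 0 := by
    rw [← sum_mul_fib H.bl h.1 (D H h)]
    have : h.1 O * h.1 O = ∑ t, h.1 t * (if t = O then h.1 O else 0) := by simp
    rw [this, ← sum_add_distrib]
    refine sum_eq_zero fun t _ => ?_
    rw [← mul_add, a1, mul_zero]
  have b2 : ∑ x, h.2 (H.wh x) * D H h x = 0 := by
    rw [← sum_mul_fib H.wh h.2 (D H h)]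
    refine sum_eq_zero fun t _ => ?_
    rw [neg_eq_zero.mp (a2 t), mul_zero]
  have b3 : ∑ x, D H h x * D H h x = ∑ x, h.1 (H.bl x) * D H h x - ∑ x, h.2 (H.wh x) * D H h x := by
    rw [← sum_sub_distrib]
    refine sum_congr rfl fun x _ => ?_
    rw [← sub_mul]; rfl
  have b4 : 0 ≤ ∑ x, D H h x * D H h x := sum_nonneg fun x _ => mul_self_nonneg _
  have b5 := mul_self_nonneg (h.1 O)
  have c1 : D H h = 0 := sq_zero _ (by linarith)
  have c2 : h.1 O = 0 := mul_self_eq_zero.mp (by linarith)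
  obtain ⟨c, h1, h2⟩ := kerD H hc h.1 h.2 (fun x => sub_eq_zero.mp (congrFun c1 x))
  have : c = 0 := by rw [← h1 O, c2]
  subst this
  exact Prod.ext (funext h1) (funext h2)

theorem eta (hc : H.Conn3) (O : H.B) :
    ∃ η : H.X → ℝ, (∀ x, H.bl x ≠ O → η x + η (H.β x) + η (H.β (H.β x)) = 0) ∧
      ∀ x, η x + η (H.ω x) + η (H.ω (H.ω x)) = -1 := by
  obtain ⟨h, hh⟩ := LinearMap.injective_iff_surjective.mp (A_inj H hc O) (0, fun _ => 1)
  refine ⟨D H h, fun x hx => ?_, fun x => ?_⟩
  · have a1 : ∑ y ∈ univ.filter (fun y => H.bl y = H.bl x), D H h y +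
      (if H.bl x = O then h.1 O else 0) = 0 := congrFun (congrArg Prod.fst hh) (H.bl x)
    rw [if_neg hx, add_zero, sum_fib H.β H.bl H.β3 H.βne H.bl_β H.bl_fib] at a1
    exact a1
  · have a2 : -∑ y ∈ univ.filter (fun y => H.wh y = H.wh x), D H h y = 1 :=
      congrFun (congrArg Prod.snd hh) (H.wh x)
    rw [sum_fib H.ω H.wh H.ω3 H.ωne H.wh_ω H.wh_fib] at a2
    linarith

end BasicAux

open BasicAux in
theorem basic : Basic := fun H =>
  ⟨⟨cardX H, cardW H, sumB H, sumW H⟩, count H, orth H, fun hc =>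
    ⟨kerD H hc, kerδ H hc, cardV H hc, cyc H hc, noloop H hc, eta H hc⟩⟩

end

end Crest.Agent.R39
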