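import Crest.Agent.R39.Defs

/-! Row 39, task CONTRACT: contraction of the outside of a 3-edge-cut to one white vertex. -/

set_option autoImplicit false

open Finset

namespace Crest.Agent.R39

noncomputable section

open Classical

namespace ContractAux

theorem three_cycle {X : Type} {C : Finset X} (hC : #C = 3) {ρ : X → X} (h1 : ∀ x ∈ C, ρ x ∈ C)
    (h2 : ∀ x ∈ C, ρ x ≠ x) (h3 : ∀ x ∈ C, ∀ y ∈ C, ρ x = ρ y → x = y) :
    ∀ x ∈ C, ρ (ρ (ρ x)) = x ∧ ∀ y ∈ C, y = x ∨ y = ρ x ∨ y = ρ (ρ x) := by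
  obtain ⟨a, b, c, hab, hac, hbc, rfl⟩ := card_eq_three.1 hC
  simp only [mem_insert, mem_singleton, forall_eq_or_imp, forall_eq] at h1 h2 h3 ⊢
  grind

theorem inj_of_sum {X V : Type} {C : Finset X} (hC : #C = 3) {h t : X → V}
    (hne : ∀ x, h x ≠ t x) (hs : ∀ g : V → ℝ, ∑ x ∈ C, g (h x) = ∑ x ∈ C, g (t x)) :
    ∀ x ∈ C, ∀ y ∈ C, h x = h y → x = y := by
  intro x hx y hy hxy
  by_contra hn
  have h1 := hs fun a => if a = h x then 1 else 0
  rw [sum_boole, sum_boole, Nat.cast_inj] at h1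
  have h2 : 2 ≤ #{z ∈ C | h z = h x} := by
    rw [← card_pair hn]
    exact card_le_card (by
      intro z hz
      rcases mem_insert.1 hz with rfl | hz
      · exact mem_filter.2 ⟨hx, rfl⟩
      · rw [mem_singleton.1 hz]; exact mem_filter.2 ⟨hy, hxy.symm⟩)
  have h3 : #{z ∈ C | t z = h x} ≤ #((C.erase x).erase y) := card_le_card fun z hz => by
    obtain ⟨hz1, hz2⟩ := mem_filter.1 hz
    refine mem_erase.2 ⟨?_, mem_erase.2 ⟨?_, hz1⟩⟩
    · rintro rfl; exact hne z (hxy ▸ hz2.symm)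
    · rintro rfl; exact hne z hz2.symm
  rw [card_erase_of_mem (mem_erase.2 ⟨Ne.symm hn, hy⟩), card_erase_of_mem hx, hC] at h3
  omega

theorem exists_of_sum {X V : Type} {C : Finset X} {h t : X → V}
    (hs : ∀ g : V → ℝ, ∑ x ∈ C, g (h x) = ∑ x ∈ C, g (t x)) :
    ∀ x ∈ C, ∃ y ∈ C, h y = t x := by
  intro x hx
  have h1 := hs fun a => if a = t x then 1 else 0
  rw [sum_boole, sum_boole, Nat.cast_inj] at h1
  have h2 : 0 < #{z ∈ C | t z = t x} := card_pos.2 ⟨x, mem_filter.2 ⟨hx, rfl⟩⟩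
  obtain ⟨y, hy⟩ := card_pos.1 (h1 ▸ h2)
  exact ⟨y, mem_filter.1 hy⟩

/-- the data needed for the contraction -/
structure Cut (H : HM) (Db : Finset H.B) (Dw : Finset H.W) (ρ : H.X → H.X) : Prop where
  inn : ∀ x, H.wh x ∈ Dw → H.bl x ∈ Db
  ne : ∃ x, H.bl x ∈ Db ∧ H.wh x ∉ Dw
  mem : ∀ x, H.bl x ∈ Db → H.wh x ∉ Dw → H.bl (ρ x) ∈ Db ∧ H.wh (ρ x) ∉ Dw
  nfix : ∀ x, H.bl x ∈ Db → H.wh x ∉ Dw → ρ x ≠ x
  cube : ∀ x, H.bl x ∈ Db → H.wh x ∉ Dw → ρ (ρ (ρ x)) = x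
  fib : ∀ x, H.bl x ∈ Db → H.wh x ∉ Dw → ∀ y, H.bl y ∈ Db → H.wh y ∉ Dw →
    y = x ∨ y = ρ x ∨ y = ρ (ρ x)
  head : ∀ x, H.bl x ∈ Db → H.wh x ∉ Dw → H.v (H.β (ρ x)) = H.v x

variable {H : HM} {Db : Finset H.B} {Dw : Finset H.W} {ρ : H.X → H.X}

def fβ (H : HM) (Db : Finset H.B) (x : {x // H.bl x ∈ Db}) : {x // H.bl x ∈ Db} :=
  ⟨H.β x, by rw [H.bl_β]; exact x.2⟩

def fω (c : Cut H Db Dw ρ) (x : {x // H.bl x ∈ Db}) : {x // H.bl x ∈ Db} :=
  ⟨if H.wh x ∈ Dw then H.ω x else ρ x, by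
    split_ifs with h
    · exact c.inn _ (by rw [H.wh_ω]; exact h)
    · exact (c.mem _ x.2 h).1⟩

theorem fω_in (c : Cut H Db Dw ρ) {x : {x // H.bl x ∈ Db}} (h : H.wh x ∈ Dw) :
    (fω c x).1 = H.ω x ∧ H.wh (fω c x).1 ∈ Dw := by
  have : (fω c x).1 = H.ω x := if_pos h
  exact ⟨this, by rw [this, H.wh_ω]; exact h⟩

theorem fω_out (c : Cut H Db Dw ρ) {x : {x // H.bl x ∈ Db}} (h : H.wh x ∉ Dw) :
    (fω c x).1 = ρ x ∧ H.wh (fω c x).1 ∉ Dw := by
  have : (fω c x).1 = ρ x := if_neg h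
  exact ⟨this, by rw [this]; exact (c.mem _ x.2 h).2⟩

theorem fω3 (c : Cut H Db Dw ρ) (x : {x // H.bl x ∈ Db}) : fω c (fω c (fω c x)) = x := by
  refine Subtype.ext ?_
  by_cases h : H.wh x ∈ Dw
  · obtain ⟨a1, b1⟩ := fω_in c h
    obtain ⟨a2, b2⟩ := fω_in c b1
    rw [(fω_in c b2).1, a2, a1, H.ω3]
  · obtain ⟨a1, b1⟩ := fω_out c h
    obtain ⟨a2, b2⟩ := fω_out c b1
    rw [(fω_out c b2).1, a2, a1, c.cube _ x.2 h]

def perm3 {X : Type} (f : X → X) (h : ∀ x, f (f (f x)) = x) : Equiv.Perm X :=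
  ⟨f, fun x => f (f x), h, h⟩

def wh1 (H : HM) (Dw : Finset H.W) (w : H.W) : Option {w // w ∈ Dw} :=
  if h : w ∈ Dw then some ⟨w, h⟩ else none

theorem wh1_eq {w w' : H.W} : wh1 H Dw w = wh1 H Dw w' ↔ w = w' ∨ (w ∉ Dw ∧ w' ∉ Dw) := by
  unfold wh1
  by_cases h : w ∈ Dw <;> by_cases h' : w' ∈ Dw
  · simp [h, h']
  · simp only [h, h', dite_true, dite_false, reduceCtorEq, not_true, false_and, or_false, false_iff]
    rintro rfl; exact h' h
  · simp only [h, h', dite_true, dite_false, reduceCtorEq, not_true, and_false, or_false, false_iff]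
    rintro rfl; exact h h'
  · simp [h, h']

/-- the contracted map -/
@[reducible] def con (c : Cut H Db Dw ρ) : HM where
  X := {x // H.bl x ∈ Db}
  B := {t // t ∈ Db}
  W := Option {w // w ∈ Dw}
  V := Quot fun x y : {x // H.bl x ∈ Db} => y = fβ H Db (fω c x)
  fV := Fintype.ofFinite _
  β := perm3 (fβ H Db) fun x => Subtype.ext (H.β3 x)
  ω := perm3 (fω c) (fω3 c)
  bl := fun x => ⟨H.bl x, x.2⟩
  wh := fun x => wh1 H Dw (H.wh x)
  v := Quot.mk _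
  β3 := fun x => Subtype.ext (H.β3 x)
  βne := fun x h => H.βne x (congrArg Subtype.val h)
  bl_β := fun x => Subtype.ext (H.bl_β x)
  bl_fib := fun x y h => by
    rcases H.bl_fib x y (congrArg Subtype.val h) with h | h | h
    exacts [Or.inl (Subtype.ext h), Or.inr (Or.inl (Subtype.ext h)), Or.inr (Or.inr (Subtype.ext h))]
  bl_surj := fun t => by
    obtain ⟨x, hx⟩ := H.bl_surj t
    exact ⟨⟨x, by rw [hx]; exact t.2⟩, Subtype.ext hx⟩
  ω3 := fω3 c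
  ωne := fun x h => by
    have h' : (fω c x).1 = x := congrArg Subtype.val h
    by_cases hx : H.wh x ∈ Dw
    · exact H.ωne x ((fω_in c hx).1 ▸ h')
    · exact c.nfix _ x.2 hx ((fω_out c hx).1 ▸ h')
  wh_ω := fun x => by
    change wh1 H Dw (H.wh (fω c x)) = _
    rw [wh1_eq]
    by_cases hx : H.wh x ∈ Dw
    · left; rw [(fω_in c hx).1, H.wh_ω]
    · exact Or.inr ⟨(fω_out c hx).2, hx⟩
  wh_fib := fun x y h => by
    change y = x ∨ y = fω c x ∨ y = fω c (fω c x)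
    simp only [Subtype.ext_iff]
    by_cases hx : H.wh x ∈ Dw
    · obtain ⟨a1, b1⟩ := fω_in c hx
      rw [(fω_in c b1).1, a1]
      exact H.wh_fib _ _ ((wh1_eq.1 h).resolve_right fun h' => h'.1 hx)
    · obtain ⟨a1, b1⟩ := fω_out c hx
      rw [(fω_out c b1).1, a1]
      refine c.fib _ x.2 hx _ y.2 ?_
      rcases wh1_eq.1 h with h' | h'
      exacts [h' ▸ hx, h'.2]
  wh_surj := fun w => by
    cases w with
    | none =>
      obtain ⟨x, h1, h2⟩ := c.ne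
      exact ⟨⟨x, h1⟩, dif_neg h2⟩
    | some w =>
      obtain ⟨x, hx⟩ := H.wh_surj w
      have h : H.wh x ∈ Dw := by rw [hx]; exact w.2
      exact ⟨⟨x, c.inn x h⟩, (dif_pos h).trans (congrArg some (Subtype.ext hx))⟩
  v_φ := fun x => (Quot.sound (a := x) (b := fβ H Db (fω c x)) rfl).symm
  v_fib := fun f hf x y h => by
    have := congrArg (Quot.lift f fun a b hab => by rw [hab]; exact propext (hf a).symm) h
    exact iff_of_eq this
  v_surj := Quot.mk_surjective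

theorem con_conn (c : Cut H Db Dw ρ) (h3 : H.Conn3) : (con c).Conn3 := by
  obtain ⟨x0, hx1, hx2⟩ := c.ne
  refine ⟨⟨⟨x0, hx1⟩⟩, fun Db₁ Dw₁ hne hnu => ?_⟩
  change Finset {t // t ∈ Db} at Db₁
  change Finset (Option {w // w ∈ Dw}) at Dw₁
  set Db' : Finset H.B := {t | if h : t ∈ Db then (⟨t, h⟩ : {t // t ∈ Db}) ∈ Db₁ else none ∈ Dw₁}
    with hDb
  set Dw' : Finset H.W := {w | wh1 H Dw w ∈ Dw₁} with hDw
  have hb : ∀ t : {t // t ∈ Db}, t.1 ∈ Db' ↔ t ∈ Db₁ := fun t => by simp [hDb, t.2]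
  have hb' : ∀ t, t ∉ Db → (t ∈ Db' ↔ none ∈ Dw₁) := fun t ht => by simp [hDb, ht]
  have hw : ∀ w, w ∈ Dw' ↔ wh1 H Dw w ∈ Dw₁ := fun w => by simp [hDw]
  have hsurj : ∀ o, ∃ w, wh1 H Dw w = o := fun o => by
    obtain ⟨x, hx⟩ := (con c).wh_surj o
    exact ⟨_, hx⟩
  have hout : ∀ x, H.bl x ∉ Db → (H.bl x ∈ Db' ↔ H.wh x ∈ Dw') := fun x hx => by
    rw [hb' _ hx, hw, wh1, dif_neg fun h => hx (c.inn x h)]
  have h1 := h3.2 Db' Dw' ?_ ?_
  · refine h1.trans (add_le_add ?_ ?_)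
    · refine card_le_card_of_surjOn Subtype.val fun x hx => ?_
      have hx' := (mem_filter.1 hx).2
      have hxb : H.bl x ∈ Db := by_contra fun h => hx'.2 ((hout x h).1 hx'.1)
      refine ⟨⟨x, hxb⟩, ?_, rfl⟩
      exact (@mem_filter _ _ (_) _ _).2
        ⟨mem_univ _, (hb ⟨_, hxb⟩).1 hx'.1, fun h => hx'.2 ((hw _).2 h)⟩
    · refine card_le_card_of_surjOn Subtype.val fun x hx => ?_
      have hx' := (mem_filter.1 hx).2
      have hxb : H.bl x ∈ Db := by_contra fun h => hx'.1 ((hout x h).2 hx'.2)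
      refine ⟨⟨x, hxb⟩, ?_, rfl⟩
      exact (@mem_filter _ _ (_) _ _).2
        ⟨mem_univ _, fun h => hx'.1 ((hb ⟨_, hxb⟩).2 h), (hw _).1 hx'.2⟩
  · rcases hne with ⟨t, ht⟩ | ⟨o, ho⟩
    · exact Or.inl ⟨t.1, (hb t).2 ht⟩
    · obtain ⟨w, rfl⟩ := hsurj o
      exact Or.inr ⟨w, (hw w).2 ho⟩
  · rcases hnu with h | h
    · refine Or.inl fun h' => h (eq_univ_of_forall fun t => (hb t).1 (h' ▸ mem_univ _))
    · refine Or.inr fun h' => h (eq_univ_of_forall fun o => ?_)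
      obtain ⟨w, rfl⟩ := hsurj o
      exact (hw w).1 (h' ▸ mem_univ _)

theorem con_card (c : Cut H Db Dw ρ) :
    #(({x : H.X | H.bl x ∈ Db} : Finset H.X).image H.v) ≤ @Fintype.card (con c).V (con c).fV := by
  let L : (con c).V → H.V := Quot.lift (fun x => H.v x.1) fun a b hab => by
    rw [hab]
    change H.v a = H.v (H.β (fω c a))
    by_cases h : H.wh a ∈ Dw
    · rw [(fω_in c h).1, H.v_φ]
    · rw [(fω_out c h).1, c.head _ a.2 h]
  refine card_le_card_of_surjOn L fun a ha => ?_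
  obtain ⟨x, hx, rfl⟩ := mem_image.1 ha
  exact ⟨Quot.mk _ ⟨x, (mem_filter.1 hx).2⟩, mem_coe.2 (@mem_univ _ (_) _), rfl⟩

end ContractAux

open ContractAux in
theorem contract (hB : Basic) : Contract := by
  intro H h3 hP Db Dw hnb hnw
  obtain ⟨-, -, horth, hc⟩ := hB H
  obtain ⟨-, -, -, -, hloop, -⟩ := hc h3
  have hloop := hloop hP
  set C : Finset H.X := {x : H.X | H.bl x ∈ Db ∧ H.wh x ∉ Dw} with hC
  have hC3 : #C = 3 := hnb
  have hmem : ∀ x, x ∈ C ↔ H.bl x ∈ Db ∧ H.wh x ∉ Dw := fun x => by simp [hC]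
  have hin : ∀ x, H.wh x ∈ Dw → H.bl x ∈ Db := fun x hx => by
    by_contra h
    have : x ∈ ({x : H.X | H.bl x ∉ Db ∧ H.wh x ∈ Dw} : Finset H.X) := by simp [h, hx]
    rw [card_eq_zero.1 hnw] at this
    exact notMem_empty _ this
  have hs : ∀ g : H.V → ℝ, ∑ x ∈ C, g (H.v (H.β x)) = ∑ x ∈ C, g (H.v x) := fun g => by
    have h1 := horth (fun t => if t ∈ Db then 1 else 0) (fun w => if w ∈ Dw then 1 else 0) g
    rw [← sub_eq_zero, ← sum_sub_distrib, ← h1, hC, sum_filter]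
    refine sum_congr rfl fun x _ => ?_
    have := hin x
    by_cases h2 : H.bl x ∈ Db <;> by_cases h3 : H.wh x ∈ Dw <;> simp_all
  have hh := inj_of_sum hC3 hloop hs
  have ht := inj_of_sum hC3 (fun x => (hloop x).symm) fun g => (hs g).symm
  choose! ρ hρ1 hρ2 using exists_of_sum hs
  have hfix : ∀ x ∈ C, ρ x ≠ x := fun x hx h => hloop x (by have := hρ2 x hx; rwa [h] at this)
  have h3c := three_cycle hC3 hρ1 hfix fun x hx y hy h =>
    ht x hx y hy (by rw [← hρ2 x hx, ← hρ2 y hy, h])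
  have c : Cut H Db Dw ρ :=
    { inn := hin
      ne := by
        obtain ⟨x, hx⟩ := card_pos.1 (show 0 < #C by omega)
        exact ⟨x, (hmem x).1 hx⟩
      mem := fun x h1 h2 => (hmem _).1 (hρ1 x ((hmem x).2 ⟨h1, h2⟩))
      nfix := fun x h1 h2 => hfix x ((hmem x).2 ⟨h1, h2⟩)
      cube := fun x h1 h2 => (h3c x ((hmem x).2 ⟨h1, h2⟩)).1
      fib := fun x h1 h2 y h1' h2' => (h3c x ((hmem x).2 ⟨h1, h2⟩)).2 y ((hmem y).2 ⟨h1', h2'⟩)
      head := fun x h1 h2 => hρ2 x ((hmem x).2 ⟨h1, h2⟩) }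
  refine ⟨by rw [card_image_of_injOn hh, hC3], con c, Subtype.val, Subtype.val_injective,
    fun x => ?_, fun x y => Subtype.ext_iff, fun x y => wh1_eq, con_conn c h3, con_card c⟩
  exact ⟨fun ⟨y, hy⟩ => hy ▸ y.2, fun h => ⟨⟨x, h⟩, rfl⟩⟩

end

end Crest.Agent.R39
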