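import Crest.Agent.R39.Defs

set_option autoImplicit false

open Finset

namespace Crest.Agent.R39

open Classical

namespace DiskAux

theorem card_le_of_inj {α β : Type} [Fintype α] [Fintype β] (A : Finset α) (E : Finset β)
    (L : (α → ℝ) →ₗ[ℝ] (β → ℝ))
    (h : ∀ f : α → ℝ, (∀ a, a ∉ A → f a = 0) → (∀ b ∈ E, L f b = 0) → f = 0) : #A ≤ #E := by
  let Φ : (A → ℝ) →ₗ[ℝ] (E → ℝ) :=
    (LinearMap.funLeft ℝ ℝ (Subtype.val : E → β)) ∘ₗ L ∘ₗ (Function.ExtendByZero.linearMap ℝ (Subtype.val : A → α))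
  have hΦ : Function.Injective Φ := by
    rw [injective_iff_map_eq_zero]
    intro f hf
    have h1 := h (Function.extend (Subtype.val : A → α) f 0) (fun a ha => by
      rw [Function.extend_apply']
      · rfl
      · rintro ⟨⟨b, hb⟩, rfl⟩; exact ha hb) (fun b hb => congrFun hf ⟨b, hb⟩)
    funext a
    have := congrFun h1 a.1
    rwa [Subtype.val_injective.extend_apply] at this
  have := LinearMap.finrank_le_finrank_of_injective hΦ
  simpa using this

variable {H : HM} {O : H.B}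

/-- the edge used in the triangle `t` -/
noncomputable def e (r m : {t // t ≠ O} → H.X) (t : {t // t ≠ O}) : H.X := if m t = H.β (r t) then r t else m t

/-- its sign -/
noncomputable def s (r m : {t // t ≠ O} → H.X) (t : {t // t ≠ O}) : ℝ := if m t = H.β (r t) then 1 else -1

theorem s_sq (r m : {t // t ≠ O} → H.X) (t : {t // t ≠ O}) : s r m t * s r m t = 1 := by
  unfold s; split_ifs <;> norm_num

theorem zc_eq (r m : {t // t ≠ O} → H.X) (K : Finset {t // t ≠ O}) (x : H.X) :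
    H.zc O r m K x = ∑ t ∈ K, if x = e r m t then s r m t else 0 := by
  unfold HM.zc e s
  refine Finset.sum_congr rfl fun t _ => ?_
  split_ifs <;> rfl

structure Ctx (H : HM) (O : H.B) (r m : {t // t ≠ O} → H.X) (π : Equiv.Perm {t // t ≠ O}) (t₀ : {t // t ≠ O})
    (K : Finset {t // t ≠ O}) : Prop where
  hr : H.IsState O r
  hm : ∀ t, H.bl (m t) = t.1
  hK : ∀ t, t ∈ K ↔ π.SameCycle t₀ t
  hc : ∀ t, π.SameCycle t₀ t → m t ≠ r t ∧ H.v (m t) = H.v (r (π t))

variable {r m : {t // t ≠ O} → H.X} {π : Equiv.Perm {t // t ≠ O}} {t₀ : {t // t ≠ O}} {K : Finset {t // t ≠ O}}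

theorem Ctx.bl_e (C : Ctx H O r m π t₀ K) (t : {t // t ≠ O}) : H.bl (e r m t) = t.1 := by
  unfold e; split_ifs
  · exact C.hr.bl_eq t
  · exact C.hm t

theorem Ctx.e_inj (C : Ctx H O r m π t₀ K) : Function.Injective (e r m) := fun t t' h =>
  Subtype.ext (by rw [← C.bl_e t, ← C.bl_e t', h])

theorem Ctx.mem_π (C : Ctx H O r m π t₀ K) {t : {t // t ≠ O}} : π t ∈ K ↔ t ∈ K := by
  rw [C.hK, C.hK, Equiv.Perm.sameCycle_apply_right]

theorem Ctx.mem_t₀ (C : Ctx H O r m π t₀ K) : t₀ ∈ K := (C.hK _).2 (Equiv.Perm.SameCycle.refl _ _)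

theorem Ctx.ends (C : Ctx H O r m π t₀ K) {t : {t // t ≠ O}} (ht : t ∈ K) :
    (s r m t = 1 ∧ H.v (e r m t) = H.v (r t) ∧ H.v (H.β (e r m t)) = H.v (r (π t))) ∨
    (s r m t = -1 ∧ H.v (e r m t) = H.v (r (π t)) ∧ H.v (H.β (e r m t)) = H.v (r t)) := by
  obtain ⟨h1, h2⟩ := C.hc t ((C.hK t).1 ht)
  unfold e s
  split_ifs with h
  · left; exact ⟨rfl, rfl, by rw [← h, h2]⟩
  · right
    refine ⟨rfl, h2, ?_⟩
    rcases H.bl_fib (r t) (m t) (by rw [C.hr.bl_eq, C.hm]) with h3 | h3 | h3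
    · exact absurd h3 h1
    · exact absurd h3 h
    · rw [h3, H.β3]

theorem Ctx.z_e (C : Ctx H O r m π t₀ K) {t : {t // t ≠ O}} (ht : t ∈ K) : H.zc O r m K (e r m t) = s r m t := by
  rw [zc_eq, Finset.sum_eq_single t]
  · simp
  · intro u _ hu
    rw [if_neg fun h => hu (C.e_inj h).symm]
  · intro h; exact absurd ht h

theorem z_zero {x : H.X} (hx : ∀ t ∈ K, x ≠ e r m t) : H.zc O r m K x = 0 := by
  rw [zc_eq]
  exact Finset.sum_eq_zero fun t ht => if_neg (hx t ht)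

theorem Ctx.z_tail (C : Ctx H O r m π t₀ K) {x : H.X} (hx : ∀ t ∈ K, H.v (r t) ≠ H.v x) : H.zc O r m K x = 0 := by
  refine z_zero fun t ht h => ?_
  rcases C.ends ht with ⟨-, h1, -⟩ | ⟨-, h1, -⟩
  · exact hx t ht (by rw [h, h1])
  · exact hx (π t) (C.mem_π.2 ht) (by rw [h, h1])

theorem Ctx.z_head (C : Ctx H O r m π t₀ K) {x : H.X} (hx : ∀ t ∈ K, H.v (r t) ≠ H.v (H.β x)) : H.zc O r m K x = 0 := by
  refine z_zero fun t ht h => ?_
  rcases C.ends ht with ⟨-, -, h1⟩ | ⟨-, -, h1⟩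
  · exact hx (π t) (C.mem_π.2 ht) (by rw [h, h1])
  · exact hx t ht (by rw [h, h1])

theorem Ctx.pair (C : Ctx H O r m π t₀ K) (y : H.X → ℝ) (hy : ∀ x, (∀ t ∈ K, x ≠ e r m t) → y x = 0) (g : H.V → ℝ) :
    ∑ x, y x * (g (H.v (H.β x)) - g (H.v x)) =
      ∑ t ∈ K, y (e r m t) * s r m t * (g (H.v (r (π t))) - g (H.v (r t))) := by
  rw [← Finset.sum_subset (Finset.subset_univ (K.image (e r m))), Finset.sum_image fun a _ b _ h => C.e_inj h]
  · refine Finset.sum_congr rfl fun t ht => ?_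
    rcases C.ends ht with ⟨h0, h1, h2⟩ | ⟨h0, h1, h2⟩ <;> rw [h0, h1, h2] <;> ring
  · intro x _ hx
    rw [hy x fun t ht h => hx (Finset.mem_image.2 ⟨t, ht, h.symm⟩), zero_mul]

theorem Ctx.z_orth (C : Ctx H O r m π t₀ K) (g : H.V → ℝ) :
    ∑ x, H.zc O r m K x * (g (H.v (H.β x)) - g (H.v x)) = 0 := by
  rw [C.pair _ (fun x hx => z_zero hx)]
  have : ∀ t ∈ K, H.zc O r m K (e r m t) * s r m t * (g (H.v (r (π t))) - g (H.v (r t))) =
      g (H.v (r (π t))) - g (H.v (r t)) := fun t ht => by rw [C.z_e ht, s_sq, one_mul]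
  rw [Finset.sum_congr rfl this, Finset.sum_sub_distrib, sub_eq_zero]
  exact Finset.sum_equiv π (fun t => C.mem_π.symm) fun t _ => rfl

/-- (K4) -/
theorem Ctx.mult (C : Ctx H O r m π t₀ K) (y : H.X → ℝ) (hy : ∀ x, (∀ t ∈ K, x ≠ e r m t) → y x = 0)
    (ho : ∀ g : H.V → ℝ, ∑ x, y x * (g (H.v (H.β x)) - g (H.v x)) = 0) :
    ∃ l : ℝ, ∀ x, y x = l * H.zc O r m K x := by
  have step : ∀ u ∈ K, y (e r m (π u)) * s r m (π u) = y (e r m u) * s r m u := by
    intro u hu
    have h := (C.pair y hy (fun a => if a = H.v (r (π u)) then 1 else 0)).symm.trans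
      (ho fun a => if a = H.v (r (π u)) then 1 else 0)
    have h1 : ∀ t t', (H.v (r t) = H.v (r t')) ↔ t = t' := fun t t' => ⟨C.hr.inj t t', fun h => by rw [h]⟩
    simp only [h1, mul_sub, Finset.sum_sub_distrib, EmbeddingLike.apply_eq_iff_eq, mul_ite, mul_one, mul_zero,
      Finset.sum_ite_eq', hu, C.mem_π.2 hu, if_true] at h
    linarith
  have all : ∀ n : ℕ, (π ^ n) t₀ ∈ K ∧ y (e r m ((π ^ n) t₀)) * s r m ((π ^ n) t₀) = y (e r m t₀) * s r m t₀ := by
    intro n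
    induction n with
    | zero => exact ⟨C.mem_t₀, rfl⟩
    | succ n ih =>
      rw [pow_succ', Equiv.Perm.mul_apply]
      exact ⟨C.mem_π.2 ih.1, by rw [step _ ih.1, ih.2]⟩
  refine ⟨y (e r m t₀) * s r m t₀, fun x => ?_⟩
  by_cases hx : ∀ t ∈ K, x ≠ e r m t
  · rw [hy x hx, z_zero hx, mul_zero]
  · push Not at hx
    obtain ⟨t, ht, rfl⟩ := hx
    obtain ⟨n, -, hn⟩ := ((C.hK t).1 ht).exists_pow_eq'
    have := (all n).2
    rw [hn] at this
    rw [← this, C.z_e ht, mul_assoc, s_sq, mul_one]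

theorem Ctx.corner (C : Ctx H O r m π t₀ K) {cb : H.B → ℝ} {cw : H.W → ℝ}
    (hz : ∀ x, cb (H.bl x) - cw (H.wh x) = H.zc O r m K x) {x y : H.X} (ha : ∀ t ∈ K, H.v (r t) ≠ H.v x)
    (hxy : H.v x = H.v y) : cb (H.bl y) = cb (H.bl x) := by
  have := H.v_fib (fun u => H.v u = H.v x ∧ cb (H.bl u) = cb (H.bl x)) (fun u => by
    rw [H.v_φ, H.bl_β]
    refine and_congr_right fun hu => ?_
    have h1 := hz u
    have h2 := hz (H.ω u)
    rw [C.z_tail (by rwa [hu])] at h1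
    rw [C.z_head (by rwa [H.v_φ, hu]), H.wh_ω] at h2
    rw [show cb (H.bl (H.ω u)) = cb (H.bl u) by linarith]) x y hxy
  exact (this.1 ⟨rfl, rfl⟩).2

theorem Ctx.rank (C : Ctx H O r m π t₀ K) (hB : Basic) (hc : H.Conn3) {cb : H.B → ℝ} {cw : H.W → ℝ}
    (hz : ∀ x, cb (H.bl x) - cw (H.wh x) = H.zc O r m K x) (μ : ℝ)
    (h2 : ∀ x, (cb (H.bl x) = μ ↔ cw (H.wh x) = μ) ∨ H.zc O r m K x ≠ 0) :
    #{t : H.B | cb t = μ} + (#{w : H.W | cw w = μ} +
      #{a : H.V | (∀ t ∈ K, H.v (r t) ≠ a) ∧ ∀ x, H.v x = a → cb (H.bl x) = μ}) ≤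
      #{x : H.X | cb (H.bl x) = μ ∧ cw (H.wh x) = μ} + 1 := by
  obtain ⟨-, -, horth, hcon⟩ := hB H
  obtain ⟨hD, hδ, -⟩ := hcon hc
  let L : (H.B ⊕ H.W ⊕ H.V → ℝ) →ₗ[ℝ] (Option H.X → ℝ) :=
    { toFun := fun f o => Option.elim o (f (.inl (H.bl (e r m t₀))) - f (.inr (.inl (H.wh (e r m t₀)))))
        fun x => (f (.inl (H.bl x)) - f (.inr (.inl (H.wh x)))) + (f (.inr (.inr (H.v (H.β x)))) - f (.inr (.inr (H.v x))))
      map_add' := fun f g => by funext o; cases o <;> simp <;> ring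
      map_smul' := fun c f => by funext o; cases o <;> simp <;> ring }
  have key := card_le_of_inj (({t : H.B | cb t = μ} : Finset H.B).disjSum (({w : H.W | cw w = μ} : Finset H.W).disjSum
      ({a : H.V | (∀ t ∈ K, H.v (r t) ≠ a) ∧ ∀ x, H.v x = a → cb (H.bl x) = μ} : Finset H.V)))
    (Finset.insertNone ({x : H.X | cb (H.bl x) = μ ∧ cw (H.wh x) = μ} : Finset H.X)) L (by
    intro f hf hL
    set hb : H.B → ℝ := fun t => f (.inl t) with hhb
    set hw : H.W → ℝ := fun w => f (.inr (.inl w)) with hhw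
    set g : H.V → ℝ := fun a => f (.inr (.inr a)) with hg
    have hb0 : ∀ t, cb t ≠ μ → hb t = 0 := fun t ht => hf _ (by simpa using ht)
    have hw0 : ∀ w, cw w ≠ μ → hw w = 0 := fun w hw => hf _ (by simpa using hw)
    have hg0 : ∀ a, g a ≠ 0 → (∀ t ∈ K, H.v (r t) ≠ a) ∧ ∀ x, H.v x = a → cb (H.bl x) = μ := fun a ha => by
      by_contra hn
      exact ha (hf _ (by simpa using hn))
    have hL0 : hb (H.bl (e r m t₀)) - hw (H.wh (e r m t₀)) = 0 := hL none (by simp)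
    have hL1 : ∀ x, cb (H.bl x) = μ → cw (H.wh x) = μ →
        (hb (H.bl x) - hw (H.wh x)) + (g (H.v (H.β x)) - g (H.v x)) = 0 := fun x h1 h2 => hL (some x) (by simp [h1, h2])
    have hsupp : ∀ x, g (H.v (H.β x)) - g (H.v x) ≠ 0 → cb (H.bl x) = μ ∧ cw (H.wh x) = μ := by
      intro x hx
      have h3 := hz x
      by_cases h1 : g (H.v x) = 0
      · have h4 : g (H.v (H.β x)) ≠ 0 := fun h => hx (by rw [h, h1, sub_zero])
        obtain ⟨h5, h6⟩ := hg0 _ h4
        have h7 := h6 _ rfl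
        rw [H.bl_β] at h7
        rw [C.z_head h5] at h3
        exact ⟨h7, by linarith⟩
      · obtain ⟨h5, h6⟩ := hg0 _ h1
        have h7 := h6 _ rfl
        rw [C.z_tail h5] at h3
        exact ⟨h7, by linarith⟩
    have hδ0 : ∀ x, g (H.v (H.β x)) - g (H.v x) = 0 := by
      have h1 := horth hb hw g
      have h3 : ∀ x, (hb (H.bl x) - hw (H.wh x)) * (g (H.v (H.β x)) - g (H.v x)) = -(g (H.v (H.β x)) - g (H.v x)) ^ 2 := by
        intro x
        by_cases hx : g (H.v (H.β x)) - g (H.v x) = 0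
        · rw [hx]; ring
        · obtain ⟨h4, h5⟩ := hsupp x hx
          have := hL1 x h4 h5
          rw [show hb (H.bl x) - hw (H.wh x) = -(g (H.v (H.β x)) - g (H.v x)) by linarith]; ring
      simp only [h3, Finset.sum_neg_distrib, neg_eq_zero] at h1
      intro x
      exact pow_eq_zero_iff two_ne_zero |>.1 ((Finset.sum_eq_zero_iff_of_nonneg fun x _ => sq_nonneg _).1 h1 x (mem_univ x))
    have hgz : ∀ a, g a = 0 := by
      intro a
      rw [hδ g (fun x => by linarith [hδ0 x]) a (H.v (r t₀))]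
      by_contra hn
      exact (hg0 _ hn).1 t₀ C.mem_t₀ rfl
    obtain ⟨l, hl⟩ := C.mult (fun x => hb (H.bl x) - hw (H.wh x)) (fun x hx => by
      rcases h2 x with h | h
      · by_cases h1 : cb (H.bl x) = μ
        · have := hL1 x h1 (h.1 h1)
          rw [hδ0 x] at this
          linarith
        · rw [hb0 _ h1, hw0 _ fun h' => h1 (h.2 h'), sub_zero]
      · exact absurd (z_zero hx) h) (horth hb hw)
    have hs0 : s r m t₀ ≠ 0 := fun h => by simpa [h] using s_sq r m t₀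
    have hl0 : l = 0 := by
      have := hl (e r m t₀)
      rw [hL0, C.z_e C.mem_t₀] at this
      exact (mul_eq_zero.1 this.symm).resolve_right hs0
    obtain ⟨k, hk1, hk2⟩ := hD hb hw fun x => by
      have := hl x
      rw [hl0, zero_mul] at this
      linarith
    have hk : k = 0 := by
      have h3 := hz (e r m t₀)
      rw [C.z_e C.mem_t₀] at h3
      by_cases h1 : cb (H.bl (e r m t₀)) = μ
      · rw [← hk2 (H.wh (e r m t₀))]
        exact hw0 _ fun h => hs0 (by rw [← h3, h1, h, sub_self])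
      · rw [← hk1 (H.bl (e r m t₀))]
        exact hb0 _ h1
    funext a
    rcases a with t | w | a
    · exact (hk1 t).trans hk
    · exact (hk2 w).trans hk
    · exact hgz a)
  simpa only [Finset.card_disjSum, Finset.card_insertNone] using key

theorem Ctx.count_edges (C : Ctx H O r m π t₀ K) (hB : Basic) {cb : H.B → ℝ} {cw : H.W → ℝ}
    (hz : ∀ x, cb (H.bl x) - cw (H.wh x) = H.zc O r m K x) (μ : ℝ) :
    3 * #{t : H.B | cb t = μ} = #{x : H.X | cb (H.bl x) = μ ∧ cw (H.wh x) = μ} + #{t ∈ K | cb t.1 = μ} := by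
  obtain ⟨⟨-, -, h3, -⟩, -⟩ := hB H
  have h1 : #{x : H.X | cb (H.bl x) = μ} = 3 * #{t : H.B | cb t = μ} := by
    have := h3 fun t => if cb t = μ then 1 else 0
    simp only [Finset.sum_boole] at this
    exact_mod_cast this
  rw [← h1, ← Finset.card_image_of_injective (K.filter fun t => cb t.1 = μ) C.e_inj,
    ← Finset.card_filter_add_card_filter_not (s := ({x : H.X | cb (H.bl x) = μ} : Finset H.X)) (fun x => cw (H.wh x) = μ),
    Finset.filter_filter]
  congr 2
  ext x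
  simp only [Finset.mem_filter, Finset.mem_univ, true_and, Finset.mem_image]
  constructor
  · rintro ⟨h4, h5⟩
    by_contra hn
    refine h5 ?_
    have := hz x
    rw [z_zero fun t ht h => hn ⟨t, ⟨ht, by rw [← C.bl_e t, ← h, h4]⟩, h.symm⟩] at this
    linarith
  · rintro ⟨t, ⟨ht, h4⟩, rfl⟩
    refine ⟨by rw [C.bl_e, h4], fun h => ?_⟩
    have := hz (e r m t)
    rw [C.z_e ht, C.bl_e, h4, h, sub_self] at this
    simpa [← this] using s_sq r m t

theorem Ctx.count_verts (C : Ctx H O r m π t₀ K) {cb : H.B → ℝ} {cw : H.W → ℝ}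
    (hz : ∀ x, cb (H.bl x) - cw (H.wh x) = H.zc O r m K x) (μ : ℝ) (R : Finset H.V)
    (hR : ∀ a ∈ R, H.IsRoot O a ∧ cb O = μ) :
    #{t : {t // t ≠ O} | cb t.1 = μ} + #R ≤ #{t ∈ K | cb t.1 = μ} +
      #{a : H.V | (∀ t ∈ K, H.v (r t) ≠ a) ∧ ∀ x, H.v x = a → cb (H.bl x) = μ} := by
  have hinj : Function.Injective fun t => H.v (r t) := fun t t' h => C.hr.inj t t' h
  rw [← Finset.card_filter_add_card_filter_not (s := ({t : {t // t ≠ O} | cb t.1 = μ} : Finset _)) (fun t => t ∈ K), add_assoc]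
  refine add_le_add (le_of_eq ?_) ?_
  · congr 1
    ext t
    simp [and_comm]
  · rw [← Finset.card_image_of_injective _ hinj, ← Finset.card_union_of_disjoint]
    · refine Finset.card_le_card fun a ha => ?_
      simp only [Finset.mem_union, Finset.mem_image, Finset.mem_filter, Finset.mem_univ, true_and] at ha ⊢
      rcases ha with ⟨t, ⟨h1, h2⟩, rfl⟩ | ha
      · have h3 : ∀ u ∈ K, H.v (r u) ≠ H.v (r t) := fun u hu h => h2 (by rwa [← C.hr.inj u t h])
        exact ⟨h3, fun x hx => by rw [C.corner hz h3 hx.symm, C.hr.bl_eq, h1]⟩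
      · obtain ⟨⟨y, hy, rfl⟩, h1⟩ := hR a ha
        have h3 : ∀ u ∈ K, H.v (r u) ≠ H.v y := fun u _ h => C.hr.nonroot u ⟨y, hy, h.symm⟩
        exact ⟨h3, fun x hx => by rw [C.corner hz h3 hx.symm, hy, h1]⟩
    · rw [Finset.disjoint_left]
      intro a ha ha'
      obtain ⟨t, -, rfl⟩ := Finset.mem_image.1 ha
      exact C.hr.nonroot t (hR _ ha').1

theorem card_sub (p : H.B → Prop) :
    #{t : H.B | p t} = #{t : {t // t ≠ O} | p t.1} + if p O then 1 else 0 := by
  rw [Finset.card_filter, Finset.card_filter, Fintype.sum_eq_add_sum_subtype_ne _ O, add_comm]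

end DiskAux

open DiskAux in
theorem disk (hB : Basic) : Disk := by
  intro H hc hp O r m π t₀ hr hm hK
  set K : Finset {t // t ≠ O} := {t | π.SameCycle t₀ t} with hKdef
  have C : Ctx H O r m π t₀ K := ⟨hr, hm, fun t => by simp [hKdef], hK⟩
  obtain ⟨⟨-, hWB, -, -⟩, -, horth, hcon⟩ := hB H
  obtain ⟨hD, -, -, hex, hloop, -⟩ := hcon hc
  obtain ⟨hb, hw, hz0⟩ := hex hp _ C.z_orth
  set cb : H.B → ℝ := fun t => hb t - hb O with hcb
  set cw : H.W → ℝ := fun w => hw w - hb O with hcw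
  have hz : ∀ x, cb (H.bl x) - cw (H.wh x) = H.zc O r m K x := fun x => by rw [hz0 x]; simp only [hcb, hcw]; ring
  have hO : cb O = 0 := sub_self _
  clear_value cb cw
  obtain ⟨σ, hσ⟩ := C.mult (fun x => cb (H.bl x) ^ 2 - cw (H.wh x) ^ 2) (fun x hx => by
    have := hz x
    rw [z_zero hx] at this
    rw [show cb (H.bl x) = cw (H.wh x) by linarith, sub_self]) (horth (fun t => cb t ^ 2) fun w => cw w ^ 2)
  obtain ⟨k, hk1, hk2⟩ := hD (fun t => cb t ^ 2 - σ * cb t) (fun w => cw w ^ 2 - σ * cw w) fun x => by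
    have h1 := hσ x
    rw [← hz x] at h1
    linarith
  have hk : k = 0 := by rw [← hk1 O, hO]; ring
  have hb2 : ∀ t, cb t = 0 ∨ cb t = σ := fun t => by
    have : cb t * (cb t - σ) = 0 := by linarith [hk1 t]
    rcases mul_eq_zero.1 this with h | h
    · exact Or.inl h
    · exact Or.inr (by linarith)
  have hw2 : ∀ w, cw w = 0 ∨ cw w = σ := fun w => by
    have : cw w * (cw w - σ) = 0 := by linarith [hk2 w]
    rcases mul_eq_zero.1 this with h | h
    · exact Or.inl h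
    · exact Or.inr (by linarith)
  have hσσ : σ * σ = 1 := by
    have h1 := hz (e r m t₀)
    have h2 := s_sq r m t₀
    rw [C.z_e C.mem_t₀] at h1
    rw [← h1] at h2
    rcases hb2 (H.bl (e r m t₀)) with h3 | h3 <;> rcases hw2 (H.wh (e r m t₀)) with h4 | h4 <;> rw [h3, h4] at h2 <;> nlinarith
  have hσ0 : σ ≠ 0 := fun h => by simp [h] at hσσ
  have hiff : ∀ μ : ℝ, ∀ x, (cb (H.bl x) = μ ↔ cw (H.wh x) = μ) ∨ H.zc O r m K x ≠ 0 := fun μ x => by
    by_cases h : H.zc O r m K x = 0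
    · left
      have := hz x
      rw [show cb (H.bl x) = cw (H.wh x) by linarith]
    · exact Or.inr h
  obtain ⟨x₀, hx₀⟩ := H.bl_surj O
  have hR : #({H.v x₀, H.v (H.β x₀), H.v (H.β (H.β x₀))} : Finset H.V) = 3 := by
    have h1 := hloop hp x₀
    have h2 := hloop hp (H.β x₀)
    have h3 := hloop hp (H.β (H.β x₀))
    rw [H.β3] at h3
    exact Finset.card_eq_three.2 ⟨_, _, _, h1.symm, h3, h2.symm, rfl⟩
  have r0 := C.rank hB hc hz 0 (hiff 0)
  have e0 := C.count_edges hB hz 0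
  have v0 := C.count_verts hz 0 {H.v x₀, H.v (H.β x₀), H.v (H.β (H.β x₀))} (fun a ha => ⟨by
    simp only [Finset.mem_insert, Finset.mem_singleton] at ha
    rcases ha with rfl | rfl | rfl
    · exact ⟨_, hx₀, rfl⟩
    · exact ⟨_, by rw [H.bl_β, hx₀], rfl⟩
    · exact ⟨_, by rw [H.bl_β, H.bl_β, hx₀], rfl⟩, hO⟩)
  have c0 := card_sub (O := O) fun t => cb t = 0
  have r1 := C.rank hB hc hz σ (hiff σ)
  have e1 := C.count_edges hB hz σ
  have v1 := C.count_verts hz σ ∅ (by simp)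
  have c1 := card_sub (O := O) fun t => cb t = σ
  rw [hR] at v0
  rw [if_pos hO] at c0
  rw [if_neg (by rw [hO]; exact hσ0.symm)] at c1
  have sb : #{t : H.B | cb t = 0} + #{t : H.B | cb t = σ} = Fintype.card H.B := by
    rw [← Finset.card_univ, ← Finset.card_filter_add_card_filter_not (s := univ) fun t => cb t = 0]
    congr 2
    ext t
    rcases hb2 t with h | h <;> simp [h, hσ0, hσ0.symm]
  have sw : #{w : H.W | cw w = 0} + #{w : H.W | cw w = σ} = Fintype.card H.W := by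
    rw [← Finset.card_univ, ← Finset.card_filter_add_card_filter_not (s := univ) fun w => cw w = 0]
    congr 2
    ext t
    rcases hw2 t with h | h <;> simp [h, hσ0, hσ0.symm]
  have sumb : ∑ t, cb t = σ * #{t : H.B | cb t = σ} := by
    rw [← Finset.sum_boole, Finset.mul_sum]
    refine Finset.sum_congr rfl fun t _ => ?_
    rcases hb2 t with h | h <;> simp [h, hσ0.symm]
  have sumw : ∑ w, cw w = σ * #{w : H.W | cw w = σ} := by
    rw [← Finset.sum_boole, Finset.mul_sum]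
    refine Finset.sum_congr rfl fun t _ => ?_
    rcases hw2 t with h | h <;> simp [h, hσ0.symm]
  have fin : #{w : H.W | cw w = σ} = #{t : H.B | cb t = σ} + 1 := by
    simp only [Finset.card_empty] at v1
    omega
  refine ⟨σ, cb, cw, mul_self_eq_one_iff.1 hσσ, hO, hz, ?_, ?_, ?_⟩
  · rw [sumb, sumw, fin]; push_cast; ring
  · rw [sumw, ← mul_assoc, hσσ, one_mul, fin]; push_cast
    linarith [Nat.cast_nonneg (α := ℝ) #{t : H.B | cb t = σ}]
  · rw [sumw, ← mul_assoc, hσσ, one_mul]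
    exact_mod_cast Finset.card_le_univ _

end Crest.Agent.R39
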