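import Crest.Agent.R39.Defs

/-! # Row 39, sub-task FOREST -/

set_option autoImplicit false

open Finset

namespace Crest.Agent.R39

open Classical

namespace ForestAux

variable {H : HM}

lemma exists_col (hl : ∀ x, H.v (H.β x) ≠ H.v x) (e : H.X) (s : {t // t ≠ H.bl e} → H.X)
    (hs : H.IsState (H.bl e) s) (hr : H.Rooted (H.bl e) s) :
    ∃ g : H.V → Bool, g (H.v e) = false ∧ g (H.v (H.β e)) = false ∧ g (H.v (H.β (H.β e))) = true ∧
      ∀ t, g (H.v (H.β (s t))) ≠ g (H.v (H.β (H.β (s t)))) := by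
  let G : ({t // t ≠ H.bl e} → Bool) → H.V → Bool := fun c a =>
    if h : ∃ t, H.v (s t) = a then c h.choose else decide (a = H.v (H.β (H.β e)))
  have hG1 : ∀ c t, G c (H.v (s t)) = c t := by
    intro c t
    have h : ∃ t', H.v (s t') = H.v (s t) := ⟨t, rfl⟩
    simp only [G, dif_pos h]
    rw [hs.inj _ _ h.choose_spec]
  have hG2 : ∀ c a, H.IsRoot (H.bl e) a → G c a = decide (a = H.v (H.β (H.β e))) := by
    intro c a ha
    have h : ¬ ∃ t, H.v (s t) = a := by
      rintro ⟨t, rfl⟩
      exact hs.nonroot t ha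
    simp only [G, dif_neg h]
  let L : ({t // t ≠ H.bl e} → Bool) → ({t // t ≠ H.bl e} → Bool) := fun c t =>
    xor (G c (H.v (H.β (s t)))) (G c (H.v (H.β (H.β (s t)))))
  have hinj : Function.Injective L := by
    intro c c' hcc
    have h0 := hr (fun a => if G c a = G c' a then 0 else 1)
      (fun a ha => by rw [hG2 c a ha, hG2 c' a ha]; simp)
      (fun t => by
        have h := congrFun hcc t
        simp only [L] at h
        revert h
        generalize G c (H.v (H.β (s t))) = p
        generalize G c (H.v (H.β (H.β (s t)))) = q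
        generalize G c' (H.v (H.β (s t))) = p'
        generalize G c' (H.v (H.β (H.β (s t)))) = q'
        cases p <;> cases q <;> cases p' <;> cases q' <;> simp)
    funext t
    have h1 := h0 (H.v (s t))
    rw [hG1, hG1] at h1
    by_contra hne
    simp [hne] at h1
  obtain ⟨c, hc⟩ := Finite.surjective_of_injective hinj (fun _ => true)
  have r0 : H.IsRoot (H.bl e) (H.v e) := ⟨e, rfl, rfl⟩
  have r1 : H.IsRoot (H.bl e) (H.v (H.β e)) := ⟨H.β e, H.bl_β e, rfl⟩
  have r2 : H.IsRoot (H.bl e) (H.v (H.β (H.β e))) := ⟨H.β (H.β e), by rw [H.bl_β, H.bl_β], rfl⟩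
  refine ⟨G c, ?_, ?_, ?_, ?_⟩
  · rw [hG2 c _ r0]
    have := hl (H.β (H.β e))
    rw [H.β3] at this
    simpa using this
  · rw [hG2 c _ r1]
    have := (hl (H.β e)).symm
    simpa using this
  · rw [hG2 c _ r2]; simp
  · intro t
    have h := congrFun hc t
    simp only [L] at h
    revert h
    generalize G c (H.v (H.β (s t))) = p
    generalize G c (H.v (H.β (H.β (s t)))) = q
    cases p <;> cases q <;> simp

lemma ββne (x : H.X) : H.β (H.β x) ≠ x := by
  intro h
  have h3 := H.β3 x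
  rw [h] at h3
  exact H.βne x h3

/-- sum over a perfect matching -/
lemma sum_match {Y : Type} [Fintype Y] (M : Finset H.X) (f : H.X → Y) (hM : ∀ t, ∃! x, x ∈ M ∧ f x = t)
    (c : Y → ℝ) : ∑ x ∈ M, c (f x) = ∑ t, c t := by
  refine Finset.sum_bij (fun x _ => f x) (fun _ _ => mem_univ _) ?_ ?_ (fun _ _ => rfl)
  · intro x hx y hy hxy
    exact (hM (f x)).unique ⟨hx, rfl⟩ ⟨hy, hxy.symm⟩
  · intro t _
    obtain ⟨x, hx, -⟩ := hM t
    exact ⟨x, hx.1, hx.2⟩

lemma card_match {Y : Type} [Fintype Y] (M : Finset H.X) (f : H.X → Y) (hM : ∀ t, ∃! x, x ∈ M ∧ f x = t) :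
    #M = Fintype.card Y := by
  have := sum_match M f hM (fun _ => 1)
  simp only [sum_const, nsmul_eq_mul, mul_one, card_univ] at this
  exact_mod_cast this

end ForestAux

open ForestAux in
theorem forest (hB : Basic) (hD : Disk) : Forest := by
  intro H hC hP e s hs hr
  obtain ⟨⟨hX, hW, hsb, hsw⟩, -, horth, hcon⟩ := hB H
  obtain ⟨hconst, -, -, -, hloop, -⟩ := hcon hC
  have hl := hloop hP
  obtain ⟨g, g0, g1, g2, gs⟩ := exists_col hl e s hs hr
  set M : Finset H.X := univ.filter (fun x => g (H.v (H.β x)) = g (H.v x)) with hMdef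
  have hM : ∀ x, x ∈ M ↔ g (H.v (H.β x)) = g (H.v x) := by intro x; simp [hMdef]
  have heM : e ∈ M := by rw [hM, g0, g1]
  -- the other corner and the monochromatic edge of `t ≠ O`
  let m : {t // t ≠ H.bl e} → H.X := fun t => if s t ∈ M then H.β (s t) else H.β (H.β (s t))
  let μ : {t // t ≠ H.bl e} → H.X := fun t => if s t ∈ M then s t else H.β (H.β (s t))
  have hmbl : ∀ t, H.bl (m t) = t.1 := by
    intro t
    simp only [m]
    split_ifs
    · rw [H.bl_β, hs.bl_eq]
    · rw [H.bl_β, H.bl_β, hs.bl_eq]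
  have hμbl : ∀ t, H.bl (μ t) = t.1 := by
    intro t
    simp only [μ]
    split_ifs
    · rw [hs.bl_eq]
    · rw [H.bl_β, H.bl_β, hs.bl_eq]
  have hmne : ∀ t, m t ≠ s t := by
    intro t
    simp only [m]
    split_ifs
    · exact H.βne _
    · exact ββne _
  have hμM : ∀ t, μ t ∈ M := by
    intro t
    simp only [μ]
    split_ifs with h
    · exact h
    · rw [hM] at h ⊢
      rw [H.β3]
      have := gs t
      revert h this
      generalize g (H.v (H.β (s t))) = p
      generalize g (H.v (H.β (H.β (s t)))) = q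
      generalize g (H.v (s t)) = r
      cases p <;> cases q <;> cases r <;> simp
  have hMμ : ∀ x, x ∈ M → ∀ t : {t // t ≠ H.bl e}, H.bl x = t.1 → x = μ t := by
    intro x hx t hxt
    have h1 := H.bl_fib (s t) x (by rw [hs.bl_eq, hxt])
    have hg := gs t
    simp only [μ]
    rcases h1 with h1 | h1 | h1
    · subst h1; rw [if_pos hx]
    · subst h1; rw [hM] at hx; exact absurd hx.symm hg
    · split_ifs with h
      · exfalso
        rw [h1, hM, H.β3] at hx
        rw [hM] at h
        exact hg (h.trans hx)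
      · exact h1
  have hMe : ∀ x, x ∈ M → H.bl x = H.bl e → x = e := by
    intro x hx hxe
    rcases H.bl_fib e x hxe.symm with h1 | h1 | h1
    · exact h1
    · rw [h1, hM, g1, g2] at hx; exact absurd hx (by simp)
    · rw [h1, hM, H.β3, g0, g2] at hx; exact absurd hx (by simp)
  have hMb : ∀ t, ∃! x, x ∈ M ∧ H.bl x = t := by
    intro t
    by_cases ht : t = H.bl e
    · exact ⟨e, ⟨heM, ht.symm⟩, fun y hy => hMe y hy.1 (hy.2.trans ht)⟩
    · exact ⟨μ ⟨t, ht⟩, ⟨hμM _, hμbl _⟩, fun y hy => hMμ y hy.1 ⟨t, ht⟩ hy.2⟩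
  have hMw0 : ∀ w, ∃ x, x ∈ M ∧ H.wh x = w := by
    intro w
    obtain ⟨x, rfl⟩ := H.wh_surj w
    have a1 := H.v_φ x
    have a2 := H.v_φ (H.ω x)
    have a3 := H.v_φ (H.ω (H.ω x))
    rw [H.ω3] at a3
    by_cases h0 : x ∈ M
    · exact ⟨x, h0, rfl⟩
    by_cases h1 : H.ω x ∈ M
    · exact ⟨_, h1, H.wh_ω x⟩
    refine ⟨H.ω (H.ω x), ?_, by rw [H.wh_ω, H.wh_ω]⟩
    rw [hM] at h0 h1 ⊢
    rw [a3] at h0
    rw [a1] at h1
    rw [a2]
    revert h0 h1
    generalize g (H.v x) = p
    generalize g (H.v (H.ω x)) = q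
    generalize g (H.v (H.ω (H.ω x))) = r
    cases p <;> cases q <;> cases r <;> simp
  have hMw : ∀ w, ∃! x, x ∈ M ∧ H.wh x = w := by
    have hcard : #M = Fintype.card H.W := by rw [card_match M H.bl hMb, hW]
    have himg : M.image H.wh = univ := by
      ext w
      simp only [mem_image, mem_univ, iff_true]
      exact hMw0 w
    have hinj : Set.InjOn H.wh M := by
      rw [← Finset.card_image_iff, himg, hcard, card_univ]
    intro w
    obtain ⟨x, hx, hxw⟩ := hMw0 w
    exact ⟨x, ⟨hx, hxw⟩, fun y hy => hinj hy.1 hx (hy.2.trans hxw.symm)⟩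
  refine ⟨M, heM, hMb, hMw, ?_⟩
  intro hb hw hh
  let fb : H.B → ℝ := fun t => if hb t then 1 else 0
  let fw : H.W → ℝ := fun w => if hw w then 1 else 0
  let z : H.X → ℝ := fun x => fb (H.bl x) - fw (H.wh x)
  have hzM : ∀ x, x ∉ M → z x = 0 := by
    intro x hx
    simp only [z, fb, fw, hh x hx, sub_self]
  have hzo : ∀ G : H.V → ℝ, ∑ x, z x * (G (H.v (H.β x)) - G (H.v x)) = 0 := horth fb fw
  -- the ends of `μ t`
  have hends : ∀ t, (H.v (μ t) = H.v (s t) ∧ H.v (H.β (μ t)) = H.v (m t)) ∨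
      (H.v (μ t) = H.v (m t) ∧ H.v (H.β (μ t)) = H.v (s t)) := by
    intro t
    simp only [μ, m]
    split_ifs
    · exact Or.inl ⟨rfl, rfl⟩
    · exact Or.inr ⟨rfl, by rw [H.β3]⟩
  have hstep : ∀ t, z (μ t) ≠ 0 → ∃ t', z (μ t') ≠ 0 ∧ H.v (m t') = H.v (s t) := by
    intro t ht
    by_contra hno
    push Not at hno
    have h := hzo (fun a => if a = H.v (s t) then 1 else 0)
    rw [Finset.sum_eq_single (μ t)] at h
    · have hne := hno t ht
      rcases hends t with ⟨h1, h2⟩ | ⟨h1, h2⟩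
      · rw [h1, h2] at h
        simp [hne, ht] at h
      · rw [h1, h2] at h
        simp [hne, ht] at h
    · intro x _ hx
      by_cases hz : z x = 0
      · rw [hz, zero_mul]
      have hxM : x ∈ M := by
        by_contra hn
        exact hz (hzM x hn)
      by_cases hxe : H.bl x = H.bl e
      · have n1 : H.v x ≠ H.v (s t) := fun h' => hs.nonroot t ⟨x, hxe, h'⟩
        have n2 : H.v (H.β x) ≠ H.v (s t) := fun h' => hs.nonroot t ⟨H.β x, by rw [H.bl_β, hxe], h'⟩
        simp [n1, n2]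
      · have hxμ := hMμ x hxM ⟨H.bl x, hxe⟩ rfl
        set t' : {t // t ≠ H.bl e} := ⟨H.bl x, hxe⟩
        have n1 : H.v (m t') ≠ H.v (s t) := hno t' (by rw [← hxμ]; exact hz)
        have n2 : H.v (s t') ≠ H.v (s t) := fun h' => hx (by rw [hxμ, hs.inj _ _ h'])
        rw [hxμ]
        rcases hends t' with ⟨h1, h2⟩ | ⟨h1, h2⟩
        · rw [h1, h2]; simp [n1, n2]
        · rw [h1, h2]; simp [n1, n2]
    · intro h'; exact absurd (mem_univ _) h'
  have hzμ : ∀ t, z (μ t) = 0 := by
    by_contra hno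
    push Not at hno
    obtain ⟨t₀, ht₀⟩ := hno
    let φ : {t // t ≠ H.bl e} → {t // t ≠ H.bl e} := fun t =>
      if h : z (μ t) ≠ 0 then (hstep t h).choose else t
    have hφ1 : ∀ t, z (μ t) ≠ 0 → z (μ (φ t)) ≠ 0 ∧ H.v (m (φ t)) = H.v (s t) := by
      intro t h
      simp only [φ, dif_pos h]
      exact (hstep t h).choose_spec
    have hφ2 : ∀ t, z (μ t) = 0 → φ t = t := by
      intro t h
      have h' : ¬ (z (μ t) ≠ 0) := by simpa using h
      simp only [φ, dif_neg h']
    have hφinj : Function.Injective φ := by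
      intro t t' htt
      by_cases h : z (μ t) = 0
      · by_cases h' : z (μ t') = 0
        · rwa [hφ2 t h, hφ2 t' h'] at htt
        · exfalso
          have := (hφ1 t' h').1
          rw [← htt, hφ2 t h] at this
          exact this h
      · by_cases h' : z (μ t') = 0
        · exfalso
          have := (hφ1 t h).1
          rw [htt, hφ2 t' h'] at this
          exact this h'
        · apply hs.inj
          rw [← (hφ1 t h).2, ← (hφ1 t' h').2, htt]
    let Φ : Equiv.Perm {t // t ≠ H.bl e} := Equiv.ofBijective φ (Finite.injective_iff_bijective.mp hφinj)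
    have hΦ : ∀ t, Φ t = φ t := fun _ => rfl
    have hinv : ∀ t, z (μ t) ≠ 0 → z (μ (Φ⁻¹ t)) ≠ 0 := by
      intro t h h'
      have h1 := hφ2 _ h'
      rw [← hΦ] at h1
      have h2 : Φ (Φ⁻¹ t) = t := by simp
      rw [h2] at h1
      rw [← h1] at h'
      exact h h'
    have hpow : ∀ n : ℕ, z (μ ((Φ⁻¹ ^ n) t₀)) ≠ 0 := by
      intro n
      induction n with
      | zero => simpa using ht₀
      | succ n ih => rw [pow_succ', Equiv.Perm.mul_apply]; exact hinv _ ih
    obtain ⟨σ, cb, cw, hσ, -, hc, hsum, -⟩ := hD H hC hP (H.bl e) s m Φ⁻¹ t₀ hs hmbl (by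
      intro t ht
      obtain ⟨n, -, rfl⟩ := ht.exists_pow_eq'
      refine ⟨hmne _, ?_⟩
      have h1 := (hφ1 _ (hinv _ (hpow n))).2
      rw [← hΦ] at h1
      simpa using h1)
    have hsupp : ∀ x, x ∉ M → cb (H.bl x) - cw (H.wh x) = 0 := by
      intro x hx
      rw [hc x, HM.zc]
      refine Finset.sum_eq_zero fun t _ => ?_
      have hne : x ≠ μ t := fun h => hx (h ▸ hμM t)
      simp only [μ] at hne
      simp only [m]
      by_cases h : s t ∈ M
      · rw [if_pos h] at hne
        simp [h, hne]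
      · rw [if_neg h] at hne
        have : H.β (s t) ≠ s t := H.βne _
        simp [h, hne, this]
    have e1 : ∑ x, (cb (H.bl x) - cw (H.wh x)) = ∑ x ∈ M, (cb (H.bl x) - cw (H.wh x)) :=
      (Finset.sum_subset (subset_univ M) (fun x _ hx => hsupp x hx)).symm
    rw [sum_sub_distrib, sum_sub_distrib, hsb, hsw, sum_match M H.bl hMb, sum_match M H.wh hMw] at e1
    rcases hσ with h | h <;> rw [h] at hsum <;> linarith
  have hze : z e = 0 := by
    have h := hzo (fun a => if a = H.v e then 1 else 0)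
    rw [Finset.sum_eq_single e] at h
    · simpa [hl e] using h
    · intro x _ hx
      have : z x = 0 := by
        by_cases hxM : x ∈ M
        · by_cases hxe : H.bl x = H.bl e
          · exact absurd (hMe x hxM hxe) hx
          · rw [hMμ x hxM ⟨H.bl x, hxe⟩ rfl]; exact hzμ _
        · exact hzM x hxM
      rw [this, zero_mul]
    · intro h'; exact absurd (mem_univ _) h'
  have hz : ∀ x, z x = 0 := by
    intro x
    by_cases hxM : x ∈ M
    · by_cases hxe : H.bl x = H.bl e
      · rw [hMe x hxM hxe]; exact hze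
      · rw [hMμ x hxM ⟨H.bl x, hxe⟩ rfl]; exact hzμ _
    · exact hzM x hxM
  obtain ⟨c, hcb, -⟩ := hconst fb fw (fun x => sub_eq_zero.mp (hz x))
  intro t t'
  have h1 := (hcb t).trans (hcb t').symm
  simp only [fb] at h1
  by_cases a : hb t <;> by_cases b : hb t' <;> simp [a, b] at h1 ⊢

end Crest.Agent.R39
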