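import Crest.Agent.R39.Defs

/-! # Row 39, task GLUE: removing non-trivial 3-edge-cuts -/

set_option autoImplicit false

open Finset

namespace Crest.Agent.R39

noncomputable section

open Classical

namespace Gl

theorem swap_nb (H : HM) (Db : Finset H.B) (Dw : Finset H.W) : H.swap.nb Dw Db = H.nw Db Dw := by
  change #{x : H.X | H.wh x ∈ Dw ∧ H.bl x ∉ Db} = _
  simp only [HM.nw, and_comm]

theorem swap_nw (H : HM) (Db : Finset H.B) (Dw : Finset H.W) : H.swap.nw Dw Db = H.nb Db Dw := by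
  change #{x : H.X | H.wh x ∉ Dw ∧ H.bl x ∈ Db} = _
  simp only [HM.nb, and_comm]

theorem nb_compl (H : HM) (Db : Finset H.B) (Dw : Finset H.W) : H.nb Dbᶜ Dwᶜ = H.nw Db Dw := by
  unfold HM.nb HM.nw
  simp only [mem_compl, not_not]

theorem nw_compl (H : HM) (Db : Finset H.B) (Dw : Finset H.W) : H.nw Dbᶜ Dwᶜ = H.nb Db Dw := by
  unfold HM.nb HM.nw
  simp only [mem_compl, not_not]

theorem swap_conn3 {H : HM} (h : H.Conn3) : H.swap.Conn3 := by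
  refine ⟨h.1, fun Dw Db h1 h2 => ?_⟩
  have := h.2 Db Dw h1.symm h2.symm
  rw [swap_nb H Db Dw, swap_nw H Db Dw]
  omega

theorem swap_planar (hB : Basic) {H : HM} (h : H.Planar) : H.swap.Planar := by
  have h1 : Fintype.card H.W = Fintype.card H.B := (hB H).1.2.1
  change Fintype.card H.V = Fintype.card H.W + 2
  rw [h1]
  exact h

/-- sum over a perfect matching -/
theorem sum_matching {X T : Type} [Fintype T] (M : Finset X) (p : X → T)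
    (h : ∀ t, ∃! x, x ∈ M ∧ p x = t) (f : T → ℝ) : ∑ x ∈ M, f (p x) = ∑ t, f t := by
  refine sum_bij (fun x _ => p x) (fun _ _ => mem_univ _) ?_ ?_ (fun _ _ => rfl)
  · intro x hx y hy e
    exact (h (p x)).unique ⟨hx, rfl⟩ ⟨hy, e.symm⟩
  · intro t _
    obtain ⟨x, hx, -⟩ := h t
    exact ⟨x, hx.1, hx.2⟩

/-- by parity the condition for one edge may be dropped -/
theorem drop (hB : Basic) (H : HM) (M : Finset H.X) (h1 : ∀ t, ∃! x, x ∈ M ∧ H.bl x = t)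
    (h2 : ∀ w, ∃! x, x ∈ M ∧ H.wh x = w) (hb : H.B → Prop) (hw : H.W → Prop) {y : H.X}
    (hy : y ∉ M) (h : ∀ x, x ∉ M → x ≠ y → (hb (H.bl x) ↔ hw (H.wh x))) :
    hb (H.bl y) ↔ hw (H.wh y) := by
  let fb : H.B → ℝ := fun t => if hb t then 1 else 0
  let fw : H.W → ℝ := fun w => if hw w then 1 else 0
  have e1 := (hB H).1.2.2.1 fb
  have e2 := (hB H).1.2.2.2 fw
  rw [← sum_add_sum_compl M, sum_matching M H.bl h1] at e1
  rw [← sum_add_sum_compl M, sum_matching M H.wh h2] at e2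
  have hy' : y ∈ Mᶜ := mem_compl.2 hy
  rw [← add_sum_erase _ _ hy'] at e1 e2
  have e3 : ∑ x ∈ Mᶜ.erase y, fb (H.bl x) = ∑ x ∈ Mᶜ.erase y, fw (H.wh x) :=
    sum_congr rfl fun x hx => by
      simp only [fb, fw, h x (mem_compl.1 (mem_erase.1 hx).2) (mem_erase.1 hx).1]
  have e4 : ∑ t, fb t = (#{t | hb t} : ℕ) := by simp [fb]
  have e5 : ∑ w, fw w = (#{w | hw w} : ℕ) := by simp [fw]
  have e6 : fb (H.bl y) + 2 * (#{w | hw w} : ℕ) = fw (H.wh y) + 2 * (#{t | hb t} : ℕ) := by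
    rw [← e4, ← e5]
    linarith
  by_cases a : hb (H.bl y) <;> by_cases b : hw (H.wh y)
  · exact iff_of_true a b
  · simp only [fb, fw, a, b, if_true, if_false] at e6
    have : 1 + 2 * #{w | hw w} = 0 + 2 * #{t | hb t} := by exact_mod_cast e6
    omega
  · simp only [fb, fw, a, b, if_true, if_false] at e6
    have : 0 + 2 * #{w | hw w} = 1 + 2 * #{t | hb t} := by exact_mod_cast e6
    omega
  · exact iff_of_false a b

/-- one half of the matching -/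
structure Half (H : HM) (Db : Finset H.B) (Dw : Finset H.W) (M : Finset H.X) (f : H.X) : Prop where
  sub : ∀ x ∈ M, H.bl x ∈ Db
  b : ∀ t ∈ Db, ∃! x, x ∈ M ∧ H.bl x = t
  w : ∀ w ∈ Dw, ∃! x, x ∈ M ∧ H.wh x = w
  f_mem : f ∈ M
  f_cut : H.wh f ∉ Dw
  f_uniq : ∀ x ∈ M, H.wh x ∉ Dw → x = f
  conn : ∀ (hb : H.B → Prop) (hw : H.W → Prop),
    (∀ x, x ∉ M → H.bl x ∈ Db → H.wh x ∈ Dw → (hb (H.bl x) ↔ hw (H.wh x))) →
    ∀ t ∈ Db, ∀ t' ∈ Db, hb t ↔ hb t'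

theorem mem_of_nw {H : HM} {Db : Finset H.B} {Dw : Finset H.W} (h : H.nw Db Dw = 0) {x : H.X}
    (hx : H.wh x ∈ Dw) : H.bl x ∈ Db := by
  by_contra hb
  have : x ∈ ({x : H.X | H.bl x ∉ Db ∧ H.wh x ∈ Dw} : Finset H.X) := by simp [hb, hx]
  rw [card_eq_zero.1 h] at this
  simp at this

theorem exists_cut {H : HM} {Db : Finset H.B} {Dw : Finset H.W} (h : H.nb Db Dw = 3) (f : H.X) :
    ∃ y, y ≠ f ∧ H.bl y ∈ Db ∧ H.wh y ∉ Dw := by
  obtain ⟨y, hy, hne⟩ := exists_mem_ne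
    (s := ({x : H.X | H.bl x ∈ Db ∧ H.wh x ∉ Dw} : Finset H.X)) (by unfold HM.nb at h; omega) f
  exact ⟨y, hne, by simpa using hy⟩

theorem half (hB : Basic) {H : HM} {Db : Finset H.B} {Dw : Finset H.W} (h3 : H.nb Db Dw = 3)
    (h0 : H.nw Db Dw = 0) {H₁ : HM} {ι : H₁.X → H.X} (hι : Function.Injective ι)
    (hr : ∀ x, x ∈ Set.range ι ↔ H.bl x ∈ Db)
    (hbl : ∀ x y, H₁.bl x = H₁.bl y ↔ H.bl (ι x) = H.bl (ι y))
    (hwh : ∀ x y, H₁.wh x = H₁.wh y ↔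
      (H.wh (ι x) = H.wh (ι y) ∨ (H.wh (ι x) ∉ Dw ∧ H.wh (ι y) ∉ Dw)))
    {e : H₁.X} (he : H₁.Ham e) : ∃ M f, ι e ∈ M ∧ Half H Db Dw M f := by
  obtain ⟨M, heM, h1, h2, hc⟩ := he
  obtain ⟨y₀, -, hy1, hy2⟩ := exists_cut h3 (ι e)
  obtain ⟨y₀, rfl⟩ := (hr y₀).2 hy1
  obtain ⟨f, ⟨hfM, hf⟩, hfu⟩ := h2 (H₁.wh y₀)
  have hfc : H.wh (ι f) ∉ Dw := by
    rcases (hwh _ _).1 hf with h | h
    · rwa [h]
    · exact h.1
  have hmem : ∀ x, ι x ∈ M.image ι ↔ x ∈ M := fun x => hι.mem_finset_image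
  refine ⟨M.image ι, ι f, (hmem e).2 heM, ?_, ?_, ?_, (hmem f).2 hfM, hfc, ?_, ?_⟩
  · intro x hx
    obtain ⟨x, -, rfl⟩ := mem_image.1 hx
    exact (hr _).1 ⟨x, rfl⟩
  · intro t ht
    obtain ⟨x, rfl⟩ := H.bl_surj t
    obtain ⟨x, rfl⟩ := (hr x).2 ht
    obtain ⟨z, ⟨hz, hz'⟩, hu⟩ := h1 (H₁.bl x)
    refine ⟨ι z, ⟨(hmem z).2 hz, (hbl _ _).1 hz'⟩, ?_⟩
    rintro u ⟨hu1, hu2⟩
    obtain ⟨u, hu1', rfl⟩ := mem_image.1 hu1
    rw [hu u ⟨hu1', (hbl _ _).2 hu2⟩]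
  · intro w hw
    obtain ⟨x, rfl⟩ := H.wh_surj w
    obtain ⟨x, rfl⟩ := (hr x).2 (mem_of_nw h0 hw)
    obtain ⟨z, ⟨hz, hz'⟩, hu⟩ := h2 (H₁.wh x)
    refine ⟨ι z, ⟨(hmem z).2 hz, ((hwh _ _).1 hz').resolve_right fun h => h.2 hw⟩, ?_⟩
    rintro u ⟨hu1, hu2⟩
    obtain ⟨u, hu1', rfl⟩ := mem_image.1 hu1
    rw [hu u ⟨hu1', (hwh _ _).2 (Or.inl hu2)⟩]
  · intro x hx hx'
    obtain ⟨x, hx1, rfl⟩ := mem_image.1 hx
    rw [hfu x ⟨hx1, (hwh _ _).2 (Or.inr ⟨hx', hy2⟩)⟩]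
  · intro hb hw h t ht t' ht'
    let hb₁ : H₁.B → Prop := fun t => ∃ x, H₁.bl x = t ∧ hb (H.bl (ι x))
    let c : Prop := hb (H.bl (ι (H₁.ω (H₁.ω f))))
    let hw₁ : H₁.W → Prop := fun w => ∃ x, H₁.wh x = w ∧
      ((H.wh (ι x) ∈ Dw ∧ hw (H.wh (ι x))) ∨ (H.wh (ι x) ∉ Dw ∧ c))
    have eb : ∀ x, hb₁ (H₁.bl x) ↔ hb (H.bl (ι x)) := fun x =>
      ⟨fun ⟨z, hz, h'⟩ => by rwa [← (hbl _ _).1 hz], fun h' => ⟨x, rfl, h'⟩⟩
    have ew : ∀ x, H.wh (ι x) ∈ Dw → (hw₁ (H₁.wh x) ↔ hw (H.wh (ι x))) := by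
      intro x hx
      refine ⟨fun ⟨z, hz, h'⟩ => ?_, fun h' => ⟨x, rfl, Or.inl ⟨hx, h'⟩⟩⟩
      have e := ((hwh _ _).1 hz).resolve_right fun h => h.2 hx
      rw [e] at h'
      exact (h'.resolve_right fun h => h.1 hx).2
    have ew' : ∀ x, H.wh (ι x) ∉ Dw → (hw₁ (H₁.wh x) ↔ c) := by
      intro x hx
      refine ⟨fun ⟨z, hz, h'⟩ => ?_, fun h' => ⟨x, rfl, Or.inr ⟨hx, h'⟩⟩⟩
      have e : H.wh (ι z) ∉ Dw := by
        rcases (hwh _ _).1 hz with h | h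
        · rwa [h]
        · exact h.1
      exact (h'.resolve_left fun h => e h.1).2
    have key : ∀ x, x ∉ M → x ≠ H₁.ω f → (hb₁ (H₁.bl x) ↔ hw₁ (H₁.wh x)) := by
      intro x hx hne
      rw [eb]
      by_cases hD : H.wh (ι x) ∈ Dw
      · rw [ew x hD]
        exact h _ (fun h' => hx ((hmem x).1 h')) ((hr _).1 ⟨x, rfl⟩) hD
      · rw [ew' x hD]
        rcases H₁.wh_fib f x ((hwh _ _).2 (Or.inr ⟨hfc, hD⟩)) with rfl | rfl | rfl
        · exact absurd hfM hx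
        · exact absurd rfl hne
        · exact Iff.rfl
    have hω : H₁.ω f ∉ M := fun h' => H₁.ωne f (hfu _ ⟨h', (H₁.wh_ω f).trans hf⟩)
    have := hc hb₁ hw₁ fun x hx => by
      by_cases e : x = H₁.ω f
      · rw [e]
        exact drop hB H₁ M h1 h2 hb₁ hw₁ hω key
      · exact key x hx e
    obtain ⟨x, rfl⟩ := H.bl_surj t
    obtain ⟨x, rfl⟩ := (hr x).2 ht
    obtain ⟨x', rfl⟩ := H.bl_surj t'
    obtain ⟨x', rfl⟩ := (hr x').2 ht'
    rw [← eb, ← eb]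
    exact this _ _

theorem glue {H : HM} {Db : Finset H.B} {Dw : Finset H.W} (h3 : H.nb Db Dw = 3)
    (h0 : H.nw Db Dw = 0) {M₁ M₂ : Finset H.X} {f : H.X} (h₁ : Half H Db Dw M₁ f)
    (h₂ : Half H.swap Dwᶜ Dbᶜ M₂ f) {e : H.X} (he : e ∈ M₁ ∪ M₂) : H.Ham e := by
  have sub₂ : ∀ x ∈ M₂, H.wh x ∉ Dw := fun x hx => mem_compl.1 (h₂.sub x hx)
  have uniq₂ : ∀ x ∈ M₂, H.bl x ∈ Db → x = f := fun x hx h =>
    h₂.f_uniq x hx fun h' => mem_compl.1 h' h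
  have hb : ∀ t, ∃! x, x ∈ M₁ ∪ M₂ ∧ H.bl x = t := by
    intro t
    by_cases ht : t ∈ Db
    · obtain ⟨x, hx, hu⟩ := h₁.b t ht
      refine ⟨x, ⟨mem_union_left _ hx.1, hx.2⟩, fun y hy => hu y ⟨?_, hy.2⟩⟩
      rcases mem_union.1 hy.1 with h | h
      · exact h
      · rw [uniq₂ y h (hy.2 ▸ ht)]
        exact h₁.f_mem
    · obtain ⟨x, hx, hu⟩ := h₂.w t (mem_compl.2 ht)
      refine ⟨x, ⟨mem_union_right _ hx.1, hx.2⟩, fun y hy => hu y ⟨?_, hy.2⟩⟩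
      rcases mem_union.1 hy.1 with h | h
      · exact absurd (hy.2 ▸ h₁.sub y h) ht
      · exact h
  refine ⟨M₁ ∪ M₂, he, hb, fun w => ?_, fun pb pw h => ?_⟩
  · by_cases hw : w ∈ Dw
    · obtain ⟨x, hx, hu⟩ := h₁.w w hw
      refine ⟨x, ⟨mem_union_left _ hx.1, hx.2⟩, fun y hy => hu y ⟨?_, hy.2⟩⟩
      rcases mem_union.1 hy.1 with h | h
      · exact h
      · exact absurd (hy.2 ▸ hw) (sub₂ y h)
    · obtain ⟨x, hx, hu⟩ := h₂.b w (mem_compl.2 hw)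
      refine ⟨x, ⟨mem_union_right _ hx.1, hx.2⟩, fun y hy => hu y ⟨?_, hy.2⟩⟩
      rcases mem_union.1 hy.1 with h | h
      · rw [h₁.f_uniq y h (hy.2 ▸ hw)]
        exact h₂.f_mem
      · exact h
  · have c₁ := h₁.conn pb pw fun x hx _ hw => h x fun h' => by
      rcases mem_union.1 h' with h' | h'
      · exact hx h'
      · exact sub₂ x h' hw
    have c₂ := h₂.conn pw pb fun x hx _ hw => (h x fun h' => by
      rcases mem_union.1 h' with h' | h'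
      · exact mem_compl.1 hw (h₁.sub x h')
      · exact hx h').symm
    obtain ⟨y, hyf, hy1, hy2⟩ := exists_cut h3 f
    have hy : y ∉ M₁ ∪ M₂ := fun h' => by
      rcases mem_union.1 h' with h' | h'
      · exact hyf (h₁.f_uniq y h' hy2)
      · exact hyf (uniq₂ y h' hy1)
    have key : ∀ t, pb t ↔ pb (H.bl y) := by
      intro t
      by_cases ht : t ∈ Db
      · exact c₁ t ht _ hy1
      · obtain ⟨x, hx, hu⟩ := hb t
        have h1 : H.bl (H.β x) = t := (H.bl_β x).trans hx.2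
        have h2 : H.β x ∉ M₁ ∪ M₂ := fun h' => H.βne x (hu _ ⟨h', h1⟩)
        have h4 : H.wh (H.β x) ∉ Dw := fun h' => ht (h1 ▸ mem_of_nw h0 h')
        rw [← h1, h _ h2, h y hy]
        exact c₂ _ (mem_compl.2 h4) _ (mem_compl.2 hy2)
    intro t t'
    rw [key t, key t']

theorem card_B (hB : Basic) {H : HM} {Db : Finset H.B} {H₁ : HM} {ι : H₁.X → H.X}
    (hι : Function.Injective ι) (hr : ∀ x, x ∈ Set.range ι ↔ H.bl x ∈ Db) :
    Fintype.card H₁.B = #Db := by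
  have h1 := (hB H₁).1.1
  have h2 := (hB H).1.2.2.1 (fun t => if t ∈ Db then 1 else 0)
  have h3 : (univ.image ι) = ({x : H.X | H.bl x ∈ Db} : Finset H.X) := by
    ext x
    simp only [mem_image, mem_univ, true_and, mem_filter]
    exact hr x
  have h4 := card_image_of_injective univ hι
  rw [h3, card_univ] at h4
  simp only [sum_boole, filter_mem_eq_inter, univ_inter] at h2
  have h5 : #({x : H.X | H.bl x ∈ Db} : Finset H.X) = 3 * #Db := by exact_mod_cast h2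
  omega

end Gl

open Gl in
theorem allHam (hB : Basic) (hC : Contract) (hM : Main4) : AllHam := by
  suffices h : ∀ n, ∀ H : HM, Fintype.card H.B = n → H.Conn3 → H.Planar → ∀ e, H.Ham e from
    fun H => h _ H rfl
  intro n
  induction n using Nat.strong_induction_on with
  | _ n ih =>
  intro H hn hc hp e
  by_cases hbad : H.NoBad
  · exact hM H hc hp hbad e
  simp only [HM.NoBad, not_forall, not_or] at hbad
  obtain ⟨Db, Dw, h3, h0, hDw, hDb⟩ := hbad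
  have h3' : H.swap.nb Dwᶜ Dbᶜ = 3 :=
    (swap_nb H Dbᶜ Dwᶜ).trans ((nw_compl H Db Dw).trans h3)
  have h0' : H.swap.nw Dwᶜ Dbᶜ = 0 :=
    (swap_nw H Dbᶜ Dwᶜ).trans ((nb_compl H Db Dw).trans h0)
  obtain ⟨hcut, H₁, ι₁, i1, r1, b1, w1, c1, v1⟩ := hC H hc hp Db Dw h3 h0
  obtain ⟨-, H₂, ι₂, i2, r2, b2, w2, c2, v2⟩ :=
    hC H.swap (swap_conn3 hc) (swap_planar hB hp) Dwᶜ Dbᶜ h3' h0'
  have n1 : Fintype.card H₁.B = #Db := card_B hB i1 r1
  have n2 : Fintype.card H₂.B = #Dwᶜ := card_B hB i2 r2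
  have hW : Fintype.card H.W = Fintype.card H.B := (hB H).1.2.1
  have hD := (hB H).2.1 Db Dw
  have hDb' : #Db < Fintype.card H.B := card_lt_univ_of_notMem
    (Classical.choose_spec (not_forall.1 fun h => hDb (eq_univ_of_forall h)))
  have hDw' : 0 < #Dw := card_pos.2 (nonempty_iff_ne_empty.2 hDw)
  have hDwc : #Dwᶜ + #Dw = Fintype.card H.W := card_compl_add_card Dw
  have u1 := ((hB H₁).2.2.2 c1).2.2.1
  have u2 := ((hB H₂).2.2.2 c2).2.2.1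
  let A₁ : Finset H.V := ({x : H.X | H.bl x ∈ Db} : Finset H.X).image H.v
  let A₂ : Finset H.V := ({x : H.X | H.wh x ∈ Dwᶜ} : Finset H.X).image fun x => H.v (H.β x)
  have v1' : #A₁ ≤ Fintype.card H₁.V := v1
  have v2' : #A₂ ≤ Fintype.card H₂.V := v2
  have hU : A₁ ∪ A₂ = univ := by
    refine eq_univ_of_forall fun a => ?_
    obtain ⟨x, rfl⟩ := H.v_surj a
    by_cases hx : H.bl x ∈ Db
    · exact mem_union_left _ (mem_image_of_mem _ (by simpa using hx))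
    · refine mem_union_right _ (mem_image.2 ⟨H.β (H.β x), ?_, by rw [H.β3]⟩)
      simp only [mem_filter, mem_univ, true_and, mem_compl]
      intro h
      have := mem_of_nw h0 h
      rw [H.bl_β, H.bl_β] at this
      exact hx this
  have hI : 3 ≤ #(A₁ ∩ A₂) := by
    rw [← hcut]
    refine card_le_card fun a ha => ?_
    obtain ⟨x, hx, rfl⟩ := mem_image.1 ha
    simp only [mem_filter, mem_univ, true_and] at hx
    refine mem_inter.2 ⟨mem_image_of_mem _ ?_, mem_image.2 ⟨x, by simpa using hx.2, rfl⟩⟩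
    simpa [H.bl_β] using hx.1
  have hUI := card_union_add_card_inter A₁ A₂
  rw [hU, card_univ] at hUI
  have hp' : Fintype.card H.V = Fintype.card H.B + 2 := hp
  have p1 : H₁.Planar := by
    change Fintype.card H₁.V = Fintype.card H₁.B + 2
    omega
  have p2 : H₂.Planar := by
    change Fintype.card H₂.V = Fintype.card H₂.B + 2
    omega
  have ih1 := ih _ (by omega) H₁ rfl c1 p1
  have ih2 := ih _ (by omega) H₂ rfl c2 p2
  by_cases he : H.bl e ∈ Db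
  · obtain ⟨e₁, rfl⟩ := (r1 e).2 he
    obtain ⟨M₁, f, heM, hf⟩ := half hB h3 h0 i1 r1 b1 w1 (ih1 e₁)
    obtain ⟨f₂, rfl⟩ := (r2 f).2 (mem_compl.2 hf.f_cut)
    obtain ⟨M₂, f', hfM, hf'⟩ := half hB h3' h0' i2 r2 b2 w2 (ih2 f₂)
    obtain rfl := hf'.f_uniq _ hfM fun h => mem_compl.1 h (hf.sub _ hf.f_mem)
    exact glue h3 h0 hf hf' (mem_union_left _ heM)
  · obtain ⟨e₂, rfl⟩ := (r2 e).2 (mem_compl.2 fun h => he (mem_of_nw h0 h))
    obtain ⟨M₂, f, heM, hf⟩ := half hB h3' h0' i2 r2 b2 w2 (ih2 e₂)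
    obtain ⟨f₁, rfl⟩ := (r1 f).2 (not_not.1 fun h => hf.f_cut (mem_compl.2 h))
    obtain ⟨M₁, f', hfM, hf'⟩ := half hB h3 h0 i1 r1 b1 w1 (ih1 f₁)
    obtain rfl := hf'.f_uniq _ hfM (mem_compl.1 (hf.sub _ hf.f_mem))
    exact glue h3 h0 hf' hf (mem_union_right _ heM)

end

end Crest.Agent.R39
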