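import Crest.Agent.R39.Defs

/-! Task HALL: two disjoint states exist. -/

set_option autoImplicit false

open Finset

namespace Crest.Agent.R39

noncomputable section

open Classical

namespace HallAux

theorem two_reg {T N : Type} [Fintype T] [Fintype N] (e : T × Bool ≃ N × Bool) :
    ∃ b : T → Bool, Function.Bijective (fun t => (e (t, b t)).1) ∧
      Function.Bijective (fun t => (e (t, !b t)).1) := by
  have hcard : Fintype.card T = Fintype.card N := by
    have := Fintype.card_congr e
    simp only [Fintype.card_prod, Fintype.card_bool] at this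
    omega
  obtain ⟨g, hg, hgA⟩ := (Finset.all_card_le_biUnion_card_iff_exists_injective
    (fun t : T => ({(e (t, false)).1, (e (t, true)).1} : Finset N))).mp (by
      intro S
      have h1 : #(S ×ˢ (univ : Finset Bool)) ≤
          #((S.biUnion fun t => ({(e (t, false)).1, (e (t, true)).1} : Finset N)) ×ˢ
            (univ : Finset Bool)) := by
        refine Finset.card_le_card_of_injOn e ?_ e.injective.injOn
        rintro ⟨t, b⟩ ht
        simp only [coe_product, coe_univ, Set.mem_prod, mem_coe, Set.mem_univ, and_true,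
          coe_biUnion, Set.mem_iUnion] at ht ⊢
        refine ⟨t, ht, ?_⟩
        cases b <;> simp
      simp only [card_product, card_univ, Fintype.card_bool] at h1
      omega)
  have hb : ∀ t, ∃ b, g t = (e (t, b)).1 := by
    intro t
    have := hgA t
    simp only [mem_insert, mem_singleton] at this
    rcases this with h | h
    · exact ⟨_, h⟩
    · exact ⟨_, h⟩
  choose b hb using hb
  have hg' : (fun t => (e (t, b t)).1) = g := funext fun t => (hb t).symm
  refine ⟨b, ?_, ?_⟩
  · rw [hg', Fintype.bijective_iff_injective_and_card]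
    exact ⟨hg, hcard⟩
  · rw [Fintype.bijective_iff_surjective_and_card]
    refine ⟨fun a => ?_, hcard⟩
    by_contra hne
    push Not at hne
    have key : ∀ c : Bool, (e.symm (a, c)).2 = b (e.symm (a, c)).1 := by
      intro c
      by_contra h
      apply hne (e.symm (a, c)).1
      have : (!b (e.symm (a, c)).1) = (e.symm (a, c)).2 := by
        revert h
        cases (e.symm (a, c)).2 <;> cases b (e.symm (a, c)).1 <;> simp
      simp only [this, Prod.mk.eta, Equiv.apply_symm_apply]
    have k2 : ∀ c : Bool, g (e.symm (a, c)).1 = a := by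
      intro c
      rw [hb, ← key c]
      simp
    have h1 : (e.symm (a, false)).1 = (e.symm (a, true)).1 := hg ((k2 _).trans (k2 _).symm)
    have h2 : e.symm (a, false) = e.symm (a, true) :=
      Prod.ext h1 (by rw [key, key, h1])
    simpa using e.symm.injective h2

theorem ββne (H : HM) (x : H.X) : H.β (H.β x) ≠ x := fun h => by
  have := H.β3 x
  rw [h] at this
  exact H.βne x this

theorem fib3 (H : HM) (t : H.B) : #{x : H.X | H.bl x = t} = 3 := by
  obtain ⟨x, rfl⟩ := H.bl_surj t
  rw [Finset.card_eq_three]
  refine ⟨x, H.β x, H.β (H.β x), (H.βne x).symm, (ββne H x).symm, (H.βne _).symm, ?_⟩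
  ext y
  simp only [mem_filter, mem_univ, true_and, mem_insert, mem_singleton]
  constructor
  · intro h
    exact H.bl_fib x y h.symm
  · rintro (rfl | rfl | rfl)
    · rfl
    · exact H.bl_β _
    · rw [H.bl_β, H.bl_β]

/-- the corners seen by a slot -/
def seen (H : HM) (O : H.B) : ({a // ¬ H.IsRoot O a} × Bool) ⊕ {t // t ≠ O} → Finset H.X
  | Sum.inl y => {x | H.v x = y.1.1}
  | Sum.inr t => {x | H.bl x = t.1}

theorem hall1 (hI : HallIneq) (H : HM) (h3 : H.Conn3) (hN : H.NoBad) (O : H.B) :
    ∃ f : ({a // ¬ H.IsRoot O a} × Bool) ⊕ {t // t ≠ O} → H.X, Function.Injective f ∧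
      ∀ y, f y ∈ seen H O y := by
  refine (Finset.all_card_le_biUnion_card_iff_exists_injective (seen H O)).mp ?_
  intro S
  set U : Finset H.V := S.toLeft.image (fun y => y.1.1) with hU
  have hUr : ∀ a ∈ U, ¬ H.IsRoot O a := by
    intro a ha
    obtain ⟨y, -, rfl⟩ := Finset.mem_image.mp ha
    exact y.1.2
  have h1 := hI H h3 hN O U hUr
  have h2 : #S.toLeft ≤ 2 * #U := by
    refine Finset.card_le_mul_card_image _ 2 fun a _ => ?_
    have : #{y ∈ S.toLeft | y.1.1 = a} ≤ #(univ : Finset Bool) := by
      refine Finset.card_le_card_of_injOn (fun y => y.2) (fun _ _ => by simp) ?_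
      intro y hy y' hy' h
      simp only [coe_filter, Set.mem_ofPred_eq] at hy hy'
      exact Prod.ext (Subtype.ext (hy.2.trans hy'.2.symm)) h
    simpa using this
  set ST : Finset H.B := S.toRight.image (fun t => t.1) with hST
  have h4 : #ST = #S.toRight := Finset.card_image_of_injective _ Subtype.val_injective
  have h5 : #(S.biUnion (seen H O)) = ∑ t : H.B, #{x ∈ S.biUnion (seen H O) | H.bl x = t} :=
    Finset.card_eq_sum_card_fiberwise (fun _ _ => by simp)
  have h6 : ∑ t : H.B, (min 2 #{x : H.X | H.bl x = t ∧ H.v x ∈ U} + if t ∈ ST then 1 else 0) ≤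
      ∑ t : H.B, #{x ∈ S.biUnion (seen H O) | H.bl x = t} := by
    refine Finset.sum_le_sum fun t _ => ?_
    split_ifs with ht
    · have : ({x : H.X | H.bl x = t} : Finset H.X) ⊆ {x ∈ S.biUnion (seen H O) | H.bl x = t} := by
        intro x hx
        simp only [mem_filter, mem_univ, true_and] at hx
        obtain ⟨t', ht', rfl⟩ := Finset.mem_image.mp ht
        simp only [mem_filter, mem_biUnion]
        exact ⟨⟨Sum.inr t', Finset.mem_toRight.mp ht', by simp [seen, hx]⟩, hx⟩
      have := Finset.card_le_card this
      rw [fib3] at this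
      omega
    · have : ({x : H.X | H.bl x = t ∧ H.v x ∈ U} : Finset H.X) ⊆
          {x ∈ S.biUnion (seen H O) | H.bl x = t} := by
        intro x hx
        simp only [mem_filter, mem_univ, true_and] at hx
        obtain ⟨y, hy, hy'⟩ := Finset.mem_image.mp hx.2
        simp only [mem_filter, mem_biUnion]
        exact ⟨⟨Sum.inl y, Finset.mem_toLeft.mp hy, by simp [seen, hy']⟩, hx.1⟩
      have := Finset.card_le_card this
      omega
  rw [Finset.sum_add_distrib] at h6
  have h7 : ∑ t : H.B, (if t ∈ ST then 1 else 0) = #ST := by simp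
  have h8 := Finset.card_toLeft_add_card_toRight (u := S)
  omega

end HallAux

open HallAux in
theorem hall (hB : Basic) (hI : HallIneq) : Hall := by
  intro H h3 hP hN O
  obtain ⟨f, hf, hfs⟩ := hall1 hI H h3 hN O
  have hfv : ∀ y, H.v (f (Sum.inl y)) = y.1.1 := fun y => by simpa [seen] using hfs (Sum.inl y)
  have hfb : ∀ t, H.bl (f (Sum.inr t)) = t.1 := fun t => by simpa [seen] using hfs (Sum.inr t)
  have hT : Fintype.card {t // t ≠ O} + 1 = Fintype.card H.B := by
    rw [Fintype.card_subtype_compl, Fintype.card_subtype_eq]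
    have : 0 < Fintype.card H.B := Fintype.card_pos_iff.mpr ⟨O⟩
    omega
  have hR : Fintype.card {a // H.IsRoot O a} ≤ 3 := by
    rw [Fintype.card_subtype, ← fib3 H O]
    refine le_trans (Finset.card_le_card ?_) (Finset.card_image_le (f := H.v))
    intro a ha
    simp only [mem_filter, mem_univ, true_and] at ha
    obtain ⟨x, hx, rfl⟩ := ha
    exact Finset.mem_image_of_mem _ (by simp [hx])
  have hNc : Fintype.card H.B ≤ Fintype.card {a // ¬ H.IsRoot O a} + 1 := by
    rw [Fintype.card_subtype_compl]
    have : Fintype.card H.V = Fintype.card H.B + 2 := hP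
    omega
  have hZ : #{x : H.X | H.bl x ≠ O} + 3 = 3 * Fintype.card H.B := by
    have := Finset.card_filter_add_card_filter_not (s := (univ : Finset H.X)) (fun x => H.bl x = O)
    rw [fib3, card_univ, (hB H).1.1] at this
    simp only [ne_eq]
    omega
  have himg : (univ.image f : Finset H.X) = ({x : H.X | H.bl x ≠ O} : Finset H.X) := by
    apply Finset.eq_of_subset_of_card_le
    · intro x hx
      obtain ⟨y, -, rfl⟩ := Finset.mem_image.mp hx
      simp only [mem_filter, mem_univ, true_and]
      rcases y with y | t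
      · intro h
        exact y.1.2 ⟨_, h, hfv y⟩
      · rw [hfb]; exact t.2
    · rw [Finset.card_image_of_injective _ hf, card_univ, Fintype.card_sum, Fintype.card_prod,
        Fintype.card_bool]
      omega
  let c : {t // t ≠ O} × Bool → H.X := fun y =>
    if y.2 then H.β (H.β (f (Sum.inr y.1))) else H.β (f (Sum.inr y.1))
  have hcb : ∀ y, H.bl (c y) = y.1.1 := by
    intro y
    simp only [c]
    split_ifs
    · rw [H.bl_β, H.bl_β, hfb]
    · rw [H.bl_β, hfb]
  have hcne : ∀ y, c y ≠ f (Sum.inr y.1) := by
    intro y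
    simp only [c]
    split_ifs
    · exact ββne H _
    · exact H.βne _
  have hcinj : Function.Injective c := by
    rintro ⟨t, b⟩ ⟨t', b'⟩ h
    have ht : t = t' := Subtype.ext ((hcb (t, b)).symm.trans ((congrArg H.bl h).trans (hcb (t', b'))))
    subst ht
    cases b <;> cases b'
    · rfl
    · exact absurd h.symm (H.βne _)
    · exact absurd h (H.βne _)
    · rfl
  have hex : ∀ y, ∃ z, f (Sum.inl z) = c y := by
    intro y
    have : c y ∈ (univ.image f : Finset H.X) := by
      rw [himg]
      simp only [mem_filter, mem_univ, true_and, hcb]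
      exact y.1.2
    obtain ⟨w, -, hw⟩ := Finset.mem_image.mp this
    rcases w with z | t
    · exact ⟨z, hw⟩
    · exfalso
      have ht : t = y.1 := Subtype.ext (by rw [← hfb, hw, hcb])
      subst ht
      exact hcne y hw.symm
  choose e he using hex
  have hebij : Function.Bijective e := by
    refine ⟨fun y y' h => hcinj (by rw [← he, ← he, h]), fun z => ?_⟩
    have hO : H.bl (f (Sum.inl z)) ≠ O := fun h => z.1.2 ⟨_, h, hfv z⟩
    rcases H.bl_fib (f (Sum.inr ⟨_, hO⟩)) (f (Sum.inl z)) (hfb _) with h | h | h
    · exact absurd (hf h) (by simp)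
    · exact ⟨(⟨_, hO⟩, false), Sum.inl_injective (hf (by rw [he]; exact h.symm))⟩
    · exact ⟨(⟨_, hO⟩, true), Sum.inl_injective (hf (by rw [he]; exact h.symm))⟩
  have hv : ∀ y, H.v (c y) = (e y).1.1 := fun y => by rw [← he, hfv]
  have state : ∀ b : {t // t ≠ O} → Bool, Function.Bijective (fun t => (e (t, b t)).1) →
      H.IsState O (fun t => c (t, b t)) := by
    intro b hb
    refine ⟨fun t => hcb _, fun t => by rw [hv]; exact (e _).1.2, fun t t' h => ?_, fun a ha => ?_⟩
    · rw [hv, hv] at h
      exact hb.1 (Subtype.ext h)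
    · obtain ⟨t, ht⟩ := hb.2 ⟨a, ha⟩
      exact ⟨t, by rw [hv]; exact congrArg Subtype.val ht⟩
  obtain ⟨b, hb1, hb2⟩ := two_reg (Equiv.ofBijective e hebij)
  refine ⟨_, _, state b hb1, state (fun t => !b t) hb2, fun t h => ?_⟩
  have := congrArg Prod.snd (hcinj h)
  simp at this

end

end Crest.Agent.R39
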