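import Crest.Agent.R39.Defs

/-! Row 39, task HALLINEQ. -/

set_option autoImplicit false

open Finset

namespace Crest.Agent.R39

noncomputable section

open Classical

namespace HI

theorem j_eq {X T : Type} (γ : Equiv.Perm X) (c : X → T) (γ3 : ∀ x, γ (γ (γ x)) = x)
    (γne : ∀ x, γ x ≠ x) (cγ : ∀ x, c (γ x) = c x)
    (fib : ∀ x y, c x = c y → y = x ∨ y = γ x ∨ y = γ (γ x)) (P : X → Prop) (x : X)
    (s : Finset X) (hs : ∀ y, y ∈ s ↔ c y = c x ∧ P y) :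
    #s = (if P x then 1 else 0) + (if P (γ x) then 1 else 0) + (if P (γ (γ x)) then 1 else 0) := by
  have e : s = ({x, γ x, γ (γ x)} : Finset X).filter P := by
    ext y
    simp only [hs, Finset.mem_filter, Finset.mem_insert, Finset.mem_singleton]
    refine and_congr_left fun _ => ⟨fun h => fib x y h.symm, ?_⟩
    rintro (rfl | rfl | rfl)
    · rfl
    · exact cγ x
    · rw [cγ, cγ]
  have h1 : x ≠ γ x := (γne x).symm
  have h2 : x ≠ γ (γ x) := fun h => γne (γ (γ x)) ((γ3 x).trans h)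
  have h3 : γ x ≠ γ (γ x) := (γne _).symm
  rw [e, Finset.card_filter, Finset.sum_insert (by simp [h1, h2]), Finset.sum_insert (by simp [h3]),
    Finset.sum_singleton, add_assoc]

theorem tri_count {X : Type} [Fintype X] (γ : Equiv.Perm X) (γ3 : ∀ x, γ (γ (γ x)) = x)
    (u : X → ℝ) : ∑ x, u x * (1 - u (γ x)) * (1 - u (γ (γ x))) =
      ∑ x, u x - 2 * ∑ x, u x * u (γ x) + ∑ x, u x * u (γ x) * u (γ (γ x)) := by
  have h := Equiv.sum_comp γ fun x => u x * u (γ (γ x))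
  simp only [γ3, mul_comm (u (γ _))] at h
  rw [two_mul]
  nth_rewrite 2 [h]
  simp only [← Finset.sum_add_distrib, ← Finset.sum_sub_distrib]
  exact Finset.sum_congr rfl fun x _ => by ring

/-- extension by zero -/
def ext0 {α : Type} (s : Finset α) : (s → ℝ) →ₗ[ℝ] (α → ℝ) where
  toFun f a := if h : a ∈ s then f ⟨a, h⟩ else 0
  map_add' f g := by ext a; by_cases h : a ∈ s <;> simp [h]
  map_smul' r f := by ext a; by_cases h : a ∈ s <;> simp [h]

theorem ext0_of_notMem {α : Type} {s : Finset α} (f : s → ℝ) {a : α} (h : a ∉ s) :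
    ext0 s f a = 0 := dif_neg h

theorem ext0_eq_zero {α : Type} {s : Finset α} {f : s → ℝ} (h : ∀ a ∈ s, ext0 s f a = 0) :
    f = 0 := funext fun a => (dif_pos a.2).symm.trans (h a a.2)

/-- the rank inequality -/
theorem rank (hB : Basic) (H : HM) (hc : H.Conn3) (O : H.B) (U : Finset H.V) (a₀ : H.V)
    (ha₀ : a₀ ∈ U) (B3 : Finset H.B) (W3 : Finset H.W) (E : Finset H.X) (hO : O ∉ B3)
    (hE : ∀ x, x ∈ E ↔ H.v x ∈ U ∧ H.v (H.β x) ∈ U)
    (h1 : ∀ x, H.bl x ∈ B3 → x ∈ E) (h2 : ∀ x, H.wh x ∈ W3 → x ∈ E)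
    (conn : ∀ g : H.V → ℝ, (∀ x ∈ E, g (H.v (H.β x)) = g (H.v x)) → ∀ a ∈ U, g a = g a₀) :
    #B3 + #W3 + #U ≤ #E + 1 := by
  let L : ((B3 → ℝ) × (W3 → ℝ) × (U.erase a₀ → ℝ)) →ₗ[ℝ] (E → ℝ) :=
    { toFun := fun p x => ext0 B3 p.1 (H.bl x) - ext0 W3 p.2.1 (H.wh x) +
        (ext0 (U.erase a₀) p.2.2 (H.v (H.β x)) - ext0 (U.erase a₀) p.2.2 (H.v x))
      map_add' := fun p q => by ext x; simp only [Prod.fst_add, Prod.snd_add, map_add, Pi.add_apply]; ring
      map_smul' := fun r p => by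
        ext x
        simp only [Prod.smul_fst, Prod.smul_snd, map_smul, Pi.smul_apply, smul_eq_mul,
          RingHom.id_apply]
        ring }
  have hinj : Function.Injective L := by
    rw [injective_iff_map_eq_zero]
    rintro ⟨hb, hw, g⟩ h0
    have h3 : ∀ x ∈ E, ext0 (U.erase a₀) g (H.v (H.β x)) - ext0 (U.erase a₀) g (H.v x) =
        -(ext0 B3 hb (H.bl x) - ext0 W3 hw (H.wh x)) := fun x hx =>
      eq_neg_of_add_eq_zero_right (congrFun h0 ⟨x, hx⟩)
    have h4 := (hB H).2.2.1 (ext0 B3 hb) (ext0 W3 hw) (ext0 (U.erase a₀) g)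
    have h5 : ∑ x, (ext0 B3 hb (H.bl x) - ext0 W3 hw (H.wh x)) ^ 2 = 0 := by
      rw [← neg_eq_zero, ← h4, ← Finset.sum_neg_distrib]
      refine Finset.sum_congr rfl fun x _ => ?_
      by_cases hx : x ∈ E
      · rw [h3 x hx]; ring
      · rw [ext0_of_notMem hb fun h => hx (h1 x h), ext0_of_notMem hw fun h => hx (h2 x h)]; ring
    have h6 : ∀ x, ext0 B3 hb (H.bl x) = ext0 W3 hw (H.wh x) := fun x =>
      sub_eq_zero.1 (pow_eq_zero_iff two_ne_zero |>.1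
        ((Finset.sum_eq_zero_iff_of_nonneg fun _ _ => sq_nonneg _).1 h5 x (Finset.mem_univ x)))
    obtain ⟨c, hc1, hc2⟩ := ((hB H).2.2.2 hc).1 _ _ h6
    have hc0 : c = 0 := (hc1 O).symm.trans (ext0_of_notMem hb hO)
    have h7 := conn (ext0 (U.erase a₀) g) fun x hx => by
      have := h3 x hx
      rwa [h6 x, sub_self, neg_zero, sub_eq_zero] at this
    rw [ext0_of_notMem g (Finset.notMem_erase a₀ U)] at h7
    exact Prod.ext (ext0_eq_zero fun t _ => (hc1 t).trans hc0)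
      (Prod.ext (ext0_eq_zero fun t _ => (hc2 t).trans hc0)
        (ext0_eq_zero fun a ha => h7 a (Finset.mem_of_mem_erase ha)))
  have h := LinearMap.finrank_le_finrank_of_injective hinj
  simp only [Module.finrank_prod, Module.finrank_fintype_fun_eq_card, Fintype.card_coe] at h
  have := Finset.card_erase_add_one ha₀
  omega

theorem conn_case (hB : Basic) (H : HM) (hc : H.Conn3) (hn : H.NoBad) (O : H.B) (U : Finset H.V)
    (hU : ∀ a ∈ U, ¬ H.IsRoot O a) (a₀ : H.V) (ha₀ : a₀ ∈ U)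
    (conn : ∀ g : H.V → ℝ, (∀ x, H.v x ∈ U → H.v (H.β x) ∈ U → g (H.v (H.β x)) = g (H.v x)) →
      ∀ a ∈ U, g a = g a₀) :
    2 * #U ≤ ∑ t : H.B, min 2 #{x : H.X | H.bl x = t ∧ H.v x ∈ U} := by
  set jb : H.B → ℕ := fun t => #{x : H.X | H.bl x = t ∧ H.v x ∈ U} with hjb
  set jw : H.W → ℕ := fun t => #{x : H.X | H.wh x = t ∧ H.v x ∈ U} with hjw
  change 2 * #U ≤ ∑ t, min 2 (jb t)
  have eb : ∀ x, jb (H.bl x) = _ := fun x =>
    j_eq H.β H.bl H.β3 H.βne H.bl_β H.bl_fib (fun y => H.v y ∈ U) x _ fun y => by simp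
  have ew : ∀ x, jw (H.wh x) = _ := fun x =>
    j_eq H.ω H.wh H.ω3 H.ωne H.wh_ω H.wh_fib (fun y => H.v y ∈ U) x _ fun y => by simp
  have hv : ∀ x, H.v (H.ω (H.ω x)) = H.v (H.β x) := fun x => by rw [← H.v_φ, H.ω3]
  have hO : jb O = 0 := by
    rw [hjb, Finset.card_eq_zero, Finset.filter_eq_empty_iff]
    exact fun x _ h => hU _ h.2 ⟨x, h.1, rfl⟩
  let u : H.X → ℝ := fun x => if H.v x ∈ U then 1 else 0
  have hr := rank hB H hc O U a₀ ha₀ {t | jb t = 3} {t | jw t = 3}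
    {x | H.v x ∈ U ∧ H.v (H.β x) ∈ U} (by simp [hO]) (by simp)
    (fun x hx => by
      rw [Finset.mem_filter_univ, eb] at hx
      rw [Finset.mem_filter_univ]
      constructor <;> by_contra hh <;> rw [if_neg hh] at hx <;> split_ifs at hx <;> omega)
    (fun x hx => by
      rw [Finset.mem_filter_univ, ew, hv] at hx
      rw [Finset.mem_filter_univ]
      constructor <;> by_contra hh <;> rw [if_neg hh] at hx <;> split_ifs at hx <;> omega)
    (fun g hg => conn g fun x h1 h2 => hg x (by simp [h1, h2]))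
  -- the cut
  have hcut : 6 ≤ H.nb {t | jb t ≠ 0} {t | jw t ≠ 0} + 2 * H.nw {t | jb t ≠ 0} {t | jw t ≠ 0} := by
    obtain ⟨x₀, hx₀⟩ := H.v_surj a₀
    have hne : ({t | jw t ≠ 0} : Finset H.W).Nonempty := ⟨H.wh x₀, by
      rw [Finset.mem_filter_univ, ew, hx₀, if_pos ha₀]; omega⟩
    have hnu : ({t | jb t ≠ 0} : Finset H.B) ≠ univ := fun h => by
      have := h ▸ Finset.mem_univ O
      simp [hO] at this
    have k1 := hc.2 _ _ (Or.inr hne) (Or.inl hnu)
    have k2 := (hB H).2.1 {t | jb t ≠ 0} {t | jw t ≠ 0}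
    have k3 := fun e1 e2 => (hn {t | jb t ≠ 0} {t | jw t ≠ 0} e1 e2).elim hne.ne_empty hnu
    by_contra hlt
    exact k3 (by omega) (by omega)
  have s1 : 3 * (#{t | jb t = 3} : ℝ) = ∑ x, u x * u (H.β x) * u (H.β (H.β x)) := by
    rw [Finset.natCast_card_filter, ← (hB H).1.2.2.1]
    refine Finset.sum_congr rfl fun x _ => ?_
    rw [eb]
    simp only [u]
    by_cases p0 : H.v x ∈ U <;> by_cases p1 : H.v (H.β x) ∈ U <;>
      by_cases p2 : H.v (H.β (H.β x)) ∈ U <;> simp [p0, p1, p2]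
  have s2 : 3 * (#{t | jw t = 3} : ℝ) = ∑ x, u x * u (H.ω x) * u (H.ω (H.ω x)) := by
    rw [Finset.natCast_card_filter, ← (hB H).1.2.2.2]
    refine Finset.sum_congr rfl fun x _ => ?_
    rw [ew]
    simp only [u]
    by_cases p0 : H.v x ∈ U <;> by_cases p1 : H.v (H.ω x) ∈ U <;>
      by_cases p2 : H.v (H.ω (H.ω x)) ∈ U <;> simp [p0, p1, p2]
  have s3 : 3 * ∑ t, ((min 2 (jb t) : ℕ) : ℝ) =
      3 * ∑ x, u x - ∑ x, u x * u (H.β x) * u (H.β (H.β x)) := by
    have e1 := Equiv.sum_comp H.β u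
    have e2 := Equiv.sum_comp H.β fun x => u (H.β x)
    have e3 : ∑ x, ((min 2 (jb (H.bl x)) : ℕ) : ℝ) = ∑ x, (u x + u (H.β x) + u (H.β (H.β x)) -
        u x * u (H.β x) * u (H.β (H.β x))) := by
      refine Finset.sum_congr rfl fun x _ => ?_
      rw [eb]
      simp only [u]
      split_ifs <;> norm_num
    rw [← (hB H).1.2.2.1, e3, Finset.sum_sub_distrib, Finset.sum_add_distrib,
      Finset.sum_add_distrib, e2, e1]
    ring
  have s4 : (#{x | H.v x ∈ U ∧ H.v (H.β x) ∈ U} : ℝ) = ∑ x, u x * u (H.β x) := by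
    rw [Finset.natCast_card_filter]
    refine Finset.sum_congr rfl fun x _ => ?_
    simp only [u]
    by_cases p0 : H.v x ∈ U <;> by_cases p1 : H.v (H.β x) ∈ U <;> simp [p0, p1]
  have s5 : ∑ x, u x * u (H.β x) = ∑ x, u x * u (H.ω x) := by
    rw [← Equiv.sum_comp H.ω]
    refine Finset.sum_congr rfl fun x _ => ?_
    simp only [u, H.v_φ]
    ring
  have s6 : (H.nb {t | jb t ≠ 0} {t | jw t ≠ 0} : ℝ) ≤
      ∑ x, u x * (1 - u (H.β x)) * (1 - u (H.β (H.β x))) := by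
    rw [HM.nb, Finset.natCast_card_filter,
      ← Equiv.sum_comp H.β fun x => u x * (1 - u (H.β x)) * (1 - u (H.β (H.β x))),
      ← Equiv.sum_comp H.β fun x => u (H.β x) * (1 - u (H.β (H.β x))) * (1 - u (H.β (H.β (H.β x))))]
    refine Finset.sum_le_sum fun x _ => ?_
    simp only [Finset.mem_filter_univ, H.β3]
    rw [eb, ew, hv]
    simp only [u]
    by_cases p0 : H.v x ∈ U <;> by_cases p1 : H.v (H.β x) ∈ U <;>
      by_cases p2 : H.v (H.β (H.β x)) ∈ U <;> by_cases p3 : H.v (H.ω x) ∈ U <;>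
      simp [p0, p1, p2, p3]
  have s7 : (H.nw {t | jb t ≠ 0} {t | jw t ≠ 0} : ℝ) ≤
      ∑ x, u x * (1 - u (H.ω x)) * (1 - u (H.ω (H.ω x))) := by
    rw [HM.nw, Finset.natCast_card_filter,
      ← Equiv.sum_comp H.ω fun x => u x * (1 - u (H.ω x)) * (1 - u (H.ω (H.ω x)))]
    refine Finset.sum_le_sum fun x _ => ?_
    simp only [Finset.mem_filter_univ, H.ω3]
    rw [eb, ew]
    simp only [u, hv]
    by_cases p0 : H.v x ∈ U <;> by_cases p1 : H.v (H.β x) ∈ U <;>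
      by_cases p2 : H.v (H.β (H.β x)) ∈ U <;> by_cases p3 : H.v (H.ω x) ∈ U <;>
      simp [p0, p1, p2, p3]
  rw [tri_count H.β H.β3] at s6
  rw [tri_count H.ω H.ω3] at s7
  have hr' : ((#{t | jb t = 3} : ℕ) : ℝ) + (#{t | jw t = 3} : ℕ) + #U ≤
      (#{x | H.v x ∈ U ∧ H.v (H.β x) ∈ U} : ℕ) + 1 := by exact_mod_cast hr
  have hcut' : (6 : ℝ) ≤ H.nb {t | jb t ≠ 0} {t | jw t ≠ 0} +
      2 * H.nw {t | jb t ≠ 0} {t | jw t ≠ 0} := by exact_mod_cast hcut
  have fin : (2 : ℝ) * #U ≤ ∑ t, ((min 2 (jb t) : ℕ) : ℝ) := by linarith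
  exact_mod_cast fin

theorem min_split {p0 p1 p2 q0 q1 q2 : Prop} (k1 : p0 → p1 → (q1 ↔ q0)) (k2 : p1 → p2 → (q2 ↔ q1))
    (k3 : p2 → p0 → (q0 ↔ q2)) :
    min 2 (@ite _ (p0 ∧ q0) (propDecidable _) 1 0 + @ite _ (p1 ∧ q1) (propDecidable _) 1 0 +
        @ite _ (p2 ∧ q2) (propDecidable _) 1 0) +
      min 2 (@ite _ (p0 ∧ ¬ q0) (propDecidable _) 1 0 + @ite _ (p1 ∧ ¬ q1) (propDecidable _) 1 0 +
        @ite _ (p2 ∧ ¬ q2) (propDecidable _) 1 0) ≤
      min 2 ((if p0 then 1 else 0) + (if p1 then 1 else 0) + (if p2 then 1 else 0)) := by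
  by_cases p0 <;> by_cases p1 <;> by_cases p2 <;> by_cases q0 <;> by_cases q1 <;> by_cases q2 <;>
    simp_all

end HI

theorem hallIneq (hB : Basic) : HallIneq := by
  intro H hc hn O U
  induction U using Finset.strongInduction with
  | H U ih =>
  intro hU
  rcases U.eq_empty_or_nonempty with rfl | ⟨a₀, ha₀⟩
  · simp
  by_cases conn : ∀ g : H.V → ℝ,
      (∀ x, H.v x ∈ U → H.v (H.β x) ∈ U → g (H.v (H.β x)) = g (H.v x)) → ∀ a ∈ U, g a = g a₀
  · exact HI.conn_case hB H hc hn O U hU a₀ ha₀ conn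
  push Not at conn
  obtain ⟨g, hg, a, ha, hne⟩ := conn
  have h1 := ih (U.filter fun b => g b = g a₀) (Finset.filter_ssubset.2 ⟨a, ha, hne⟩)
    fun b hb => hU b (Finset.mem_filter.1 hb).1
  have h2 := ih (U.filter fun b => ¬ g b = g a₀) (Finset.filter_ssubset.2 ⟨a₀, ha₀, by simp⟩)
    fun b hb => hU b (Finset.mem_filter.1 hb).1
  rw [← Finset.card_filter_add_card_filter_not (s := U) fun b => g b = g a₀, mul_add]
  refine (add_le_add h1 h2).trans ?_
  rw [← Finset.sum_add_distrib]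
  refine Finset.sum_le_sum fun t _ => ?_
  obtain ⟨x, rfl⟩ := H.bl_surj t
  have e := fun (P : H.X → Prop) => HI.j_eq H.β H.bl H.β3 H.βne H.bl_β H.bl_fib P x
  rw [e (fun y => H.v y ∈ U ∧ g (H.v y) = g a₀) _ fun y => by simp,
    e (fun y => H.v y ∈ U ∧ ¬ g (H.v y) = g a₀) _ fun y => by simp,
    e (fun y => H.v y ∈ U) _ fun y => by simp]
  have k3 := hg (H.β (H.β x))
  rw [H.β3] at k3
  exact HI.min_split (fun h h' => by rw [hg _ h h']) (fun h h' => by rw [hg _ h h'])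
    (fun h h' => by rw [k3 h h'])

end

end Crest.Agent.R39
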