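import Crest.Agent.R39.Defs

/-! Row 39, task INV. -/

set_option autoImplicit false

open Finset

namespace Crest.Agent.R39

noncomputable section

open Classical

namespace InvAux

theorem inv_cycle {ι : Type} [Fintype ι] (π : Equiv.Perm ι) (A : Finset ι)
    (hA : ∀ t, π t ∈ A ↔ t ∈ A) {s t : ι} (h : π.SameCycle s t) : s ∈ A ↔ t ∈ A := by
  obtain ⟨n, rfl⟩ := h.exists_nat_pow_eq
  clear h
  induction n with
  | zero => simp
  | succ n ih => rw [pow_succ', Equiv.Perm.mul_apply, hA]; exact ih

end InvAux

theorem inv_ : Inv := by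
  intro ι _ π p q
  rw [Finset.prod_add]
  symm
  refine Finset.sum_nbij'
    (fun S => univ.filter fun t => Quotient.mk (Equiv.Perm.SameCycle.setoid π) t ∈ S)
    (fun A => A.image (Quotient.mk (Equiv.Perm.SameCycle.setoid π))) ?_ ?_ ?_ ?_ ?_
  · intro S _
    simp only [mem_filter, mem_univ, true_and]
    intro t
    have : Quotient.mk (Equiv.Perm.SameCycle.setoid π) (π t) =
        Quotient.mk (Equiv.Perm.SameCycle.setoid π) t :=
      Quotient.sound (Equiv.Perm.sameCycle_apply_left.mpr (Equiv.Perm.SameCycle.refl π t))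
    rw [this]
  · intro A _
    simp
  · intro S _
    ext K
    obtain ⟨t, rfl⟩ := Quotient.exists_rep K
    simp only [mem_image, mem_filter, mem_univ, true_and]
    exact ⟨fun ⟨s, hs, e⟩ => e ▸ hs, fun h => ⟨t, h, rfl⟩⟩
  · intro A hA
    simp only [mem_filter, mem_univ, true_and] at hA
    ext t
    simp only [mem_image, mem_filter, mem_univ, true_and]
    exact ⟨fun ⟨s, hs, e⟩ => (InvAux.inv_cycle π A hA (Quotient.exact e)).mp hs,
      fun h => ⟨t, h, rfl⟩⟩
  · intro S _
    rw [← prod_fiberwise (s := univ) (g := Quotient.mk (Equiv.Perm.SameCycle.setoid π)),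
      ← prod_sdiff (subset_univ S)]
    refine (mul_comm _ _).trans ?_
    congr 1
    · refine prod_congr rfl fun K hK => prod_congr rfl fun t ht => ?_
      rw [if_neg]
      simp only [mem_filter, mem_univ, true_and, mem_sdiff] at ht hK ⊢
      rw [ht]; exact hK
    · refine prod_congr rfl fun K hK => prod_congr rfl fun t ht => ?_
      rw [if_pos]
      simp only [mem_filter, mem_univ, true_and] at ht ⊢
      rw [ht]; exact hK

end

end Crest.Agent.R39
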