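import Crest.Agent.R39.Defs

/-! Task KAST: the Kasteleyn determinant. -/

set_option autoImplicit false

open Finset

namespace Crest.Agent.R39

noncomputable section

open Classical

namespace KastAux

theorem sign_of_odd {ι : Type} [Fintype ι] [DecidableEq ι] (π : Equiv.Perm ι)
    (h : ∀ (t₀ : ι) (K : Finset ι), (∀ t, t ∈ K ↔ π.SameCycle t₀ t) → Odd #K) :
    Equiv.Perm.sign π = 1 := by
  rw [Equiv.Perm.sign_of_cycleType']
  apply Multiset.prod_eq_one
  intro u hu
  rw [Multiset.mem_map] at hu
  obtain ⟨n, hn, rfl⟩ := hu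
  rw [Equiv.Perm.cycleType_def, Multiset.mem_map] at hn
  obtain ⟨c, hc, rfl⟩ := hn
  have hc' : c ∈ π.cycleFactorsFinset := hc
  obtain ⟨t₀, ht₀⟩ := (Equiv.Perm.mem_cycleFactorsFinset_iff.mp hc').1.nonempty_support
  have e := Equiv.Perm.cycle_is_cycleOf ht₀ hc'
  have hs : t₀ ∈ π.support := Equiv.Perm.mem_cycleFactorsFinset_support_le hc' ht₀
  have hodd : Odd #c.support := h t₀ _ (fun t => by
    rw [e, Equiv.Perm.mem_support_cycleOf_iff]
    simp only [hs, and_true])
  simp only [Function.comp]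
  rw [hodd.neg_one_pow, neg_neg]

theorem odd_card {ι : Type} (K : Finset ι) (p : ι → Prop) [DecidablePred p] (σ : ℝ)
    (hσ : σ = 1 ∨ σ = -1) (h : ∑ t ∈ K, (if p t then (1 : ℝ) else -1) = -3 * σ) : Odd #K := by
  have h1 : ∑ t ∈ K, (if p t then (1 : ℝ) else -1) = 2 * (#(K.filter p) : ℝ) - #K := by
    rw [Finset.card_filter]
    push_cast
    rw [Finset.mul_sum, Finset.card_eq_sum_ones K]
    push_cast
    rw [← Finset.sum_sub_distrib]
    refine Finset.sum_congr rfl fun t _ => ?_
    split_ifs <;> norm_num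
  rw [h1] at h
  rcases hσ with rfl | rfl
  · have : (#K : ℝ) = ((2 * #(K.filter p) + 3 : ℕ) : ℝ) := by push_cast; linarith
    have := Nat.cast_injective (R := ℝ) this
    exact ⟨#(K.filter p) + 1, by omega⟩
  · have : ((#K + 3 : ℕ) : ℝ) = ((2 * #(K.filter p) : ℕ) : ℝ) := by push_cast; linarith
    have := Nat.cast_injective (R := ℝ) this
    exact ⟨#(K.filter p) - 2, by omega⟩

theorem sign_one (hB : Basic) (hD : Disk) (H : HM) (h3 : H.Conn3) (hP : H.Planar) (O : H.B)
    (s r : {t // t ≠ O} → H.X) (hs : H.IsState O s) (hr : ∀ t, H.bl (r t) = t.1)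
    (hne : ∀ t, r t ≠ s t) (π : Equiv.Perm {t // t ≠ O}) (hπ : ∀ t, H.v (r t) = H.v (s (π t))) :
    Equiv.Perm.sign π = 1 := by
  apply sign_of_odd
  intro t₀ K hK
  obtain ⟨σ, cb, cw, hσ, -, hz, hsum, -⟩ :=
    hD H h3 hP O s r π t₀ hs hr (fun t _ => ⟨hne t, hπ t⟩)
  obtain ⟨⟨-, -, hb, hw⟩, -⟩ := hB H
  have hK' : ({t | π.SameCycle t₀ t} : Finset {t // t ≠ O}) = K := by
    ext t; simp [hK]
  rw [hK'] at hz
  refine odd_card K (fun t => r t = H.β (s t)) σ hσ ?_
  have h1 : ∑ x, (cb (H.bl x) - cw (H.wh x)) = -3 * σ := by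
    rw [Finset.sum_sub_distrib, hb, hw]; linarith
  rw [← h1]
  simp only [hz, HM.zc]
  rw [Finset.sum_comm]
  refine Finset.sum_congr rfl fun t _ => ?_
  split_ifs <;> simp

end KastAux

open KastAux in
theorem kast (hB : Basic) (hD : Disk) : Kast := by
  intro H h3 hP O s hs hsum g hg0 hg
  have hββ : ∀ x, H.β (H.β x) ≠ x := fun x h => by
    have := H.β3 x
    rw [h] at this
    exact H.βne x this
  let C : {t // t ≠ O} → Finset H.X := fun t => {H.β (s t), H.β (H.β (s t))}
  have hC : ∀ t x, x ∈ C t ↔ H.bl x = t.1 ∧ x ≠ s t := by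
    intro t x
    simp only [C, Finset.mem_insert, Finset.mem_singleton]
    constructor
    · rintro (rfl | rfl)
      · exact ⟨by rw [H.bl_β, hs.bl_eq], H.βne _⟩
      · exact ⟨by rw [H.bl_β, H.bl_β, hs.bl_eq], hββ _⟩
    · rintro ⟨h1, h2⟩
      rcases H.bl_fib (s t) x (by rw [h1, hs.bl_eq]) with h | h | h
      · exact absurd h h2
      · exact Or.inl h
      · exact Or.inr h
  let M : Matrix {t // t ≠ O} {t // t ≠ O} ℝ := Matrix.of fun t t' =>
    ∑ c ∈ C t, (if c = H.β (s t) then (1 : ℝ) else -1) * (if H.v c = H.v (s t') then 1 else 0)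
  have hdet : M.det = ∑ r ∈ (univ : Finset ({t // t ≠ O} → H.X)).filter
      (fun r => H.IsState O r ∧ ∀ t, r t ≠ s t), ∏ t, eps H r s t := by
    rw [← Matrix.det_transpose, Matrix.det_apply']
    simp only [M, Matrix.transpose_apply, Matrix.of_apply, Finset.prod_univ_sum, Finset.mul_sum]
    rw [Finset.sum_comm]
    symm
    refine Finset.sum_subset_zero_on_sdiff ?_ ?_ ?_
    · intro r hr
      simp only [Finset.mem_filter, Finset.mem_univ, true_and] at hr
      rw [Fintype.mem_piFinset]
      intro t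
      exact (hC t _).mpr ⟨hr.1.bl_eq t, hr.2 t⟩
    · intro r hr
      simp only [Finset.mem_sdiff, Fintype.mem_piFinset, Finset.mem_filter, Finset.mem_univ,
        true_and] at hr
      refine Finset.sum_eq_zero fun π _ => ?_
      by_contra hne
      have hπ : ∀ t, H.v (r t) = H.v (s (π t)) := by
        intro t
        by_contra h
        apply hne
        rw [Finset.prod_eq_zero (Finset.mem_univ t) (by rw [if_neg h, mul_zero]), mul_zero]
      refine hr.2 ⟨⟨fun t => ((hC t _).mp (hr.1 t)).1, fun t => by rw [hπ]; exact hs.nonroot _,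
        fun t t' h => π.injective (hs.inj _ _ (by rw [← hπ, ← hπ, h])), fun a ha => ?_⟩,
        fun t => ((hC t _).mp (hr.1 t)).2⟩
      obtain ⟨t, ht⟩ := hs.surj a ha
      exact ⟨π.symm t, by rw [hπ, Equiv.apply_symm_apply, ht]⟩
    · intro r hr
      simp only [Finset.mem_filter, Finset.mem_univ, true_and] at hr
      choose f hf using fun t => hs.surj _ (hr.1.nonroot t)
      have hinj : Function.Injective f := fun t t' h => hr.1.inj _ _ (by rw [← hf, ← hf, h])
      let π : Equiv.Perm {t // t ≠ O} := Equiv.ofBijective f (Finite.injective_iff_bijective.mp hinj)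
      have hπ : ∀ t, H.v (r t) = H.v (s (π t)) := fun t => (hf t).symm
      rw [Finset.sum_eq_single π]
      · rw [sign_one hB hD H h3 hP O s r hs hr.1.bl_eq hr.2 π hπ]
        simp only [Units.val_one, Int.cast_one, one_mul]
        refine Finset.prod_congr rfl fun t _ => ?_
        rw [if_pos (hπ t), mul_one]
        rfl
      · intro π' _ hne
        have : ∃ t, π' t ≠ π t := by
          by_contra h
          push Not at h
          exact hne (Equiv.ext h)
        obtain ⟨t, ht⟩ := this
        rw [Finset.prod_eq_zero (Finset.mem_univ t), mul_zero]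
        rw [if_neg (c := H.v (r t) = H.v (s (π' t))), mul_zero]
        intro h
        exact ht (hs.inj _ _ (by rw [← h, hπ]))
      · intro h
        exact absurd (Finset.mem_univ _) h
  have hval : ∀ a, ∑ t', (if a = H.v (s t') then (1 : ℝ) else 0) * g (H.v (s t')) = g a := by
    intro a
    by_cases ha : H.IsRoot O a
    · rw [hg0 a ha]
      refine Finset.sum_eq_zero fun t' _ => ?_
      rw [if_neg, zero_mul]
      rintro rfl
      exact hs.nonroot _ ha
    · obtain ⟨t, rfl⟩ := hs.surj a ha
      rw [Finset.sum_eq_single t]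
      · simp
      · intro t' _ hne
        rw [if_neg, zero_mul]
        intro h
        exact hne (hs.inj _ _ h).symm
      · intro h
        exact absurd (Finset.mem_univ _) h
  have hker : M.mulVec (fun t' => g (H.v (s t'))) = 0 := by
    funext t
    simp only [M, Matrix.mulVec, dotProduct, Matrix.of_apply, Finset.sum_mul, Pi.zero_apply]
    rw [Finset.sum_comm]
    simp only [mul_assoc, ← Finset.mul_sum, hval]
    have hne : H.β (s t) ≠ H.β (H.β (s t)) := (H.βne _).symm
    simp only [C]
    rw [Finset.sum_pair hne, if_pos rfl, if_neg hne.symm, hg t]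
    ring
  have hw := Matrix.eq_zero_of_mulVec_eq_zero (by rw [hdet]; exact hsum) hker
  intro a
  by_cases ha : H.IsRoot O a
  · exact hg0 a ha
  · obtain ⟨t, rfl⟩ := hs.surj a ha
    exact congrFun hw t

end

end Crest.Agent.R39
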