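import Crest.Agent.R39.Defs

set_option autoImplicit false

open Finset

namespace Crest.Agent.R39

open Classical

theorem main4 (h1 : Hall) (h2 : Pos) (h3 : Kast) (h4 : Forest) : Main4 := by
  intro H hc hp hn e
  obtain ⟨a, ha⟩ := h2 H hc hp (H.bl e) (h1 H hc hp hn (H.bl e))
  by_contra hne
  apply ha
  rw [Finset.sum_filter, Fintype.sum_prod_type_right]
  refine Finset.sum_eq_zero fun s _ => ?_
  by_cases hs : H.IsState (H.bl e) s
  · have h0 : ∑ r ∈ (univ : Finset ({t // t ≠ H.bl e} → H.X)).filter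
        (fun r => H.IsState (H.bl e) r ∧ ∀ t, r t ≠ s t), ∏ t, eps H r s t = 0 := by
      by_contra h0
      exact hne (h4 H hc hp e s hs (h3 H hc hp _ s hs h0))
    have h0' : ∑ r ∈ (univ : Finset ({t // t ≠ H.bl e} → H.X)).filter
        (fun r => H.IsState (H.bl e) r ∧ ∀ t, r t ≠ s t), ∏ t, ((eps H r s t : ℝ) : ℂ) = 0 := by
      exact_mod_cast congrArg (fun x : ℝ => (x : ℂ)) h0
    have key : ∀ r : {t // t ≠ H.bl e} → H.X,
        ∏ t, (Complex.I * (eps H r s t : ℝ) * Complex.exp (Complex.I * (a (s t) : ℝ))) =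
          (∏ t : {t // t ≠ H.bl e}, (Complex.I * Complex.exp (Complex.I * (a (s t) : ℝ)))) * ∏ t, ((eps H r s t : ℝ) : ℂ) := by
      intro r
      rw [← Finset.prod_mul_distrib]
      exact Finset.prod_congr rfl fun t _ => by ring
    simp only [key, hs, true_and]
    rw [← Finset.sum_filter, ← Finset.mul_sum, h0', mul_zero]
  · simp [hs]

end Crest.Agent.R39
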