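import Crest.Agent.R39.Defs

/-! Task POS: the signed exponential sum over pairs of disjoint states is non-zero. -/

set_option autoImplicit false

open Finset

namespace Crest.Agent.R39

open Classical

namespace PosAux

variable {H : HM} {O : H.B}

/-- exchange `r` and `s` on `A` -/
noncomputable def mix (r s : {t // t ≠ O} → H.X) (A : Finset {t // t ≠ O}) :
    {t // t ≠ O} → H.X := fun t => if t ∈ A then s t else r t

theorem mix_compl (r s : {t // t ≠ O} → H.X) (A : Finset {t // t ≠ O}) :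
    mix s r A = mix r s Aᶜ := by
  funext t
  by_cases h : t ∈ A <;> simp [mix, h]

theorem exists_perm {r s : {t // t ≠ O} → H.X} (hr : H.IsState O r) (hs : H.IsState O s) :
    ∃ π : Equiv.Perm {t // t ≠ O}, ∀ t, H.v (r (π t)) = H.v (s t) := by
  choose f hf using fun t => hr.surj (H.v (s t)) (hs.nonroot t)
  have hinj : Function.Injective f := fun t t' h => hs.inj t t' (by rw [← hf, ← hf, h])
  exact ⟨Equiv.ofBijective f (Finite.injective_iff_bijective.1 hinj), hf⟩

theorem mix_state {r s : {t // t ≠ O} → H.X} (hr : H.IsState O r) (hs : H.IsState O s)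
    {π : Equiv.Perm {t // t ≠ O}} (hπ : ∀ t, H.v (r (π t)) = H.v (s t))
    {A : Finset {t // t ≠ O}} (hA : ∀ t, π t ∈ A ↔ t ∈ A) : H.IsState O (mix r s A) where
  bl_eq t := by
    unfold mix; split_ifs
    · exact hs.bl_eq t
    · exact hr.bl_eq t
  nonroot t := by
    unfold mix; split_ifs
    · exact hs.nonroot t
    · exact hr.nonroot t
  inj t t' h := by
    unfold mix at h
    split_ifs at h with h1 h2 h2
    · exact hs.inj t t' h
    · rw [← hπ] at h
      exact absurd ((hA t).2 h1) (by rw [hr.inj _ _ h]; exact h2)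
    · rw [← hπ] at h
      exact absurd ((hA t').2 h2) (by rw [← hr.inj _ _ h]; exact h1)
    · exact hr.inj t t' h
  surj a ha := by
    obtain ⟨t, ht⟩ := hr.surj a ha
    by_cases h : t ∈ A
    · refine ⟨π.symm t, ?_⟩
      have h' : π.symm t ∈ A := (hA _).1 (by simpa using h)
      unfold mix
      rw [if_pos h', ← hπ, Equiv.apply_symm_apply, ht]
    · exact ⟨t, by unfold mix; rw [if_neg h, ht]⟩

/-- unordered pairs of corners -/
def key (p : ({t // t ≠ O} → H.X) × ({t // t ≠ O} → H.X)) : {t // t ≠ O} → Sym2 H.X :=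
  fun t => s(p.1 t, p.2 t)

/-- pairs of disjoint states -/
noncomputable def PP (H : HM) (O : H.B) : Finset (({t // t ≠ O} → H.X) × ({t // t ≠ O} → H.X)) :=
  univ.filter (fun p => H.IsState O p.1 ∧ H.IsState O p.2 ∧ ∀ t, p.1 t ≠ p.2 t)

theorem group_eq {r s : {t // t ≠ O} → H.X} (hr : H.IsState O r) (hs : H.IsState O s)
    (hne : ∀ t, r t ≠ s t) {π : Equiv.Perm {t // t ≠ O}} (hπ : ∀ t, H.v (r (π t)) = H.v (s t))
    (f : ({t // t ≠ O} → H.X) × ({t // t ≠ O} → H.X) → ℂ) :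
    ∑ A ∈ (univ : Finset (Finset {t // t ≠ O})).filter (fun A => ∀ t, π t ∈ A ↔ t ∈ A),
        f (mix r s A, mix s r A) =
      ∑ p ∈ (PP H O).filter (fun p => key p = key (r, s)), f p := by
  have hcase : ∀ p ∈ (PP H O).filter (fun p => key p = key (r, s)), ∀ t,
      (p.1 t = r t ∧ p.2 t = s t) ∨ (p.1 t = s t ∧ p.2 t = r t) := by
    intro p hp t
    have := congrFun (mem_filter.1 hp).2 t
    simpa [key] using this
  refine Finset.sum_nbij' (fun A => (mix r s A, mix s r A))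
    (fun p => univ.filter fun t => p.1 t = s t) ?_ ?_ ?_ ?_ ?_
  · intro A hA
    have hA' := (mem_filter.1 hA).2
    refine mem_filter.2 ⟨mem_filter.2 ⟨mem_univ _, mix_state hr hs hπ hA', ?_, ?_⟩, ?_⟩
    · change H.IsState O (mix s r A)
      rw [mix_compl]
      exact mix_state hr hs hπ (fun t => by simp [hA' t])
    · intro t
      by_cases h : t ∈ A
      · simpa [mix, h] using (hne t).symm
      · simpa [mix, h] using hne t
    · funext t
      by_cases h : t ∈ A <;> simp [key, mix, h]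
  · intro p hp
    have hc := hcase p hp
    obtain ⟨-, h1, h2, -⟩ := mem_filter.1 (mem_filter.1 hp).1
    refine mem_filter.2 ⟨mem_univ _, fun t => ?_⟩
    simp only [mem_filter, mem_univ, true_and]
    constructor
    · intro h
      by_contra h'
      have e1 : p.2 t = s t := ((hc t).resolve_right (fun h'' => h' h''.1)).2
      have e2 : p.2 (π t) = r (π t) := by
        rcases hc (π t) with h3 | h3
        · exact absurd (h3.1.symm.trans h) (hne _)
        · exact h3.2
      have : π t = t := h2.inj _ _ (by rw [e1, e2, hπ])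
      rw [this] at h
      exact h' h
    · intro h
      by_contra h'
      have e2 : p.1 (π t) = r (π t) := ((hc (π t)).resolve_right (fun h'' => h' h''.1)).1
      have : π t = t := h1.inj _ _ (by rw [h, e2, hπ])
      rw [this] at h'
      exact h' h
  · intro A _
    ext t
    by_cases h : t ∈ A
    · simp [mix, h]
    · simpa [mix, h] using hne t
  · intro p hp
    have hc := hcase p hp
    refine Prod.ext (funext fun t => ?_) (funext fun t => ?_)
    · rcases hc t with h | h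
      · simp [mix, h.1, hne t]
      · simp [mix, h.1]
    · rcases hc t with h | h
      · simp [mix, h.1, h.2, hne t]
      · simp [mix, h.1, h.2]
  · intro A _
    rfl

theorem corner_cases {x y : H.X} (hb : H.bl x = H.bl y) (hne : x ≠ y) :
    (x = H.β y ∧ y ≠ H.β x) ∨ (x ≠ H.β y ∧ y = H.β x) := by
  have h2 : ∀ z, H.β (H.β z) ≠ z := fun z h => H.βne z (by
    have := congrArg H.β h
    rw [H.β3] at this
    exact this.symm)
  rcases H.bl_fib y x hb.symm with h | h | h
  · exact absurd h hne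
  · exact Or.inl ⟨h, by rw [h]; exact (h2 y).symm⟩
  · refine Or.inr ⟨by rw [h]; exact H.βne _, by rw [h, H.β3]⟩

theorem sum_zc (r m : {t // t ≠ O} → H.X) (K : Finset {t // t ≠ O}) (f : H.X → ℝ) :
    ∑ x, f x * H.zc O r m K x = ∑ t ∈ K, if m t = H.β (r t) then f (r t) else - f (m t) := by
  unfold HM.zc
  simp only [Finset.mul_sum]
  rw [Finset.sum_comm]
  refine Finset.sum_congr rfl fun t _ => ?_
  split_ifs <;> simp

theorem sum_rot (σ : Equiv.Perm H.X) (f g : H.X → ℝ) (hg : ∀ x, g (σ x) = g x) :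
    3 * ∑ x, f x * g x = ∑ x, (f x + f (σ x) + f (σ (σ x))) * g x := by
  have h1 : ∑ x, f (σ x) * g x = ∑ x, f x * g x := by
    rw [← Equiv.sum_comp σ (fun x => f x * g x)]
    simp only [hg]
  have h2 : ∑ x, f (σ (σ x)) * g x = ∑ x, f (σ x) * g x := by
    rw [← Equiv.sum_comp σ (fun x => f (σ x) * g x)]
    simp only [hg]
  simp only [add_mul, Finset.sum_add_distrib]
  rw [h2, h1]; ring

theorem prod_sign {ι : Type} (K : Finset ι) (e : ι → ℝ) (he : ∀ t, e t = 1 ∨ e t = -1) :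
    ∏ t ∈ K, (Complex.I * (e t : ℂ)) =
      Complex.exp (Complex.I * ((Real.pi / 2 * ∑ t ∈ K, e t : ℝ) : ℂ)) := by
  rw [Finset.mul_sum, Complex.ofReal_sum, Finset.mul_sum, Complex.exp_sum]
  refine Finset.prod_congr rfl fun t _ => ?_
  rcases he t with h | h
  · rw [h, mul_one, mul_comm Complex.I (((Real.pi / 2 : ℝ)) : ℂ), Complex.exp_mul_I]
    simp
  · rw [h, mul_comm Complex.I (((Real.pi / 2 * -1 : ℝ)) : ℂ), Complex.exp_mul_I]
    simp

theorem exp_three (σ : ℝ) (hσ : σ = 1 ∨ σ = -1) :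
    Complex.exp (Complex.I * ((Real.pi / 2 * (3 * σ) : ℝ) : ℂ)) = - Complex.I * σ := by
  have h := prod_sign (univ : Finset (Fin 3)) (fun _ => σ) (fun _ => hσ)
  simp only [Finset.prod_const, Finset.sum_const, card_univ, Fintype.card_fin, nsmul_eq_mul,
    Nat.cast_ofNat] at h
  rw [← h]
  rcases hσ with h | h <;> rw [h] <;> simp [pow_succ]

theorem two_term (σ R S w θ : ℝ) (hσ : σ = 1 ∨ σ = -1) (h : S - R = σ * w) :
    Complex.I * σ * Complex.exp (Complex.I * ((θ * R : ℝ) : ℂ)) +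
      - Complex.I * σ * Complex.exp (Complex.I * ((θ * S : ℝ) : ℂ)) =
      ((2 * Real.sin (θ * w / 2) : ℝ) : ℂ) *
        Complex.exp (Complex.I * ((θ * ((R + S) / 2) : ℝ) : ℂ)) := by
  have e1 : Complex.I * ((θ * R : ℝ) : ℂ) =
      ((-(σ * (θ * w / 2)) : ℝ) : ℂ) * Complex.I + Complex.I * ((θ * ((R + S) / 2) : ℝ) : ℂ) := by
    have : θ * R = -(σ * (θ * w / 2)) + θ * ((R + S) / 2) := by linear_combination (-θ / 2) * h
    rw [this]; push_cast; ring
  have e2 : Complex.I * ((θ * S : ℝ) : ℂ) =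
      ((σ * (θ * w / 2) : ℝ) : ℂ) * Complex.I + Complex.I * ((θ * ((R + S) / 2) : ℝ) : ℂ) := by
    have : θ * S = σ * (θ * w / 2) + θ * ((R + S) / 2) := by linear_combination (θ / 2) * h
    rw [this]; push_cast; ring
  rw [e1, e2, Complex.exp_add, Complex.exp_add, Complex.exp_mul_I, Complex.exp_mul_I]
  generalize Complex.exp (Complex.I * ((θ * ((R + S) / 2) : ℝ) : ℂ)) = E
  generalize θ * w / 2 = y
  rcases hσ with h | h <;> subst h
  · simp only [one_mul, Complex.ofReal_neg, Complex.cos_neg, Complex.sin_neg, Complex.ofReal_mul,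
      Complex.ofReal_ofNat, Complex.ofReal_sin, Complex.ofReal_one]
    linear_combination (-2 * Complex.sin y * E) * Complex.I_mul_I
  · simp only [neg_mul, one_mul, neg_neg, Complex.ofReal_neg, Complex.cos_neg, Complex.sin_neg,
      Complex.ofReal_mul, Complex.ofReal_ofNat, Complex.ofReal_sin, Complex.ofReal_one]
    linear_combination (-2 * Complex.sin y * E) * Complex.I_mul_I

theorem eps_cases (r s : {t // t ≠ O} → H.X) (t : {t // t ≠ O}) :
    eps H r s t = 1 ∨ eps H r s t = -1 := by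
  unfold eps; split_ifs <;> simp

/-- one cycle -/
theorem cycle_term (hB : Basic) (hD : Disk) (hc : H.Conn3) (hp : H.Planar)
    {r s : {t // t ≠ O} → H.X} (hr : H.IsState O r) (hs : H.IsState O s)
    (hne : ∀ t, r t ≠ s t) {π : Equiv.Perm {t // t ≠ O}} (hπ : ∀ t, H.v (r (π t)) = H.v (s t))
    {η a : H.X → ℝ} (hη1 : ∀ x, H.bl x ≠ O → η x + η (H.β x) + η (H.β (H.β x)) = 0)
    (hη2 : ∀ x, η x + η (H.ω x) + η (H.ω (H.ω x)) = -1)
    (ha : ∀ x, H.bl x ≠ O → a (H.β x) - a x = η x) {θ : ℝ} (hθ : 0 < θ)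
    (hθW : θ * Fintype.card H.W < 1) (t₀ : {t // t ≠ O}) (K : Finset {t // t ≠ O})
    (hK : K = ({t | π.SameCycle t₀ t} : Finset {t // t ≠ O})) :
    ∃ ρ : ℝ, 0 < ρ ∧
      ∏ t ∈ K, (Complex.I * (eps H s r t : ℝ) * Complex.exp (Complex.I * (θ * a (r t) : ℝ))) +
      ∏ t ∈ K, (Complex.I * (eps H r s t : ℝ) * Complex.exp (Complex.I * (θ * a (s t) : ℝ))) =
      (ρ : ℂ) * Complex.exp (Complex.I * ((θ * ∑ t ∈ K, (a (r t) + a (s t)) / 2 : ℝ) : ℂ)) := by
  obtain ⟨σ, cb, cw, hσ, hO, hz, hsum, hw1, hw2⟩ :=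
    hD H hc hp O r s π t₀ hr hs.bl_eq (fun t _ => ⟨(hne t).symm, (hπ t).symm⟩)
  rw [← hK] at hz
  obtain ⟨⟨-, -, hb3, hw3⟩, -⟩ := hB H
  have hcc : ∀ t, (r t = H.β (s t) ∧ s t ≠ H.β (r t)) ∨ (r t ≠ H.β (s t) ∧ s t = H.β (r t)) :=
    fun t => corner_cases (by rw [hr.bl_eq, hs.bl_eq]) (hne t)
  have hneg : ∀ t, eps H r s t = - eps H s r t := by
    intro t
    unfold eps
    rcases hcc t with h | h
    · rw [if_pos h.1, if_neg h.2, neg_neg]
    · rw [if_neg h.1, if_pos h.2]
  -- sum of the signs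
  have h1 : ∑ t ∈ K, eps H s r t = 3 * (-σ) := by
    have e := sum_zc r s K (fun _ => 1)
    simp only [one_mul, ← hz, Finset.sum_sub_distrib, hb3, hw3] at e
    rw [← hsum, mul_sub, e]
    rfl
  have h1' : ∑ t ∈ K, eps H r s t = 3 * σ := by
    simp only [hneg, Finset.sum_neg_distrib, h1]; ring
  -- difference of the phases
  have h2 : ∑ t ∈ K, a (s t) - ∑ t ∈ K, a (r t) = σ * (σ * ∑ w, cw w) := by
    have e := sum_zc r s K η
    have e1 : 3 * ∑ x, η x * cb (H.bl x) = 0 := by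
      rw [sum_rot H.β η (fun x => cb (H.bl x)) (fun x => by simp only [H.bl_β])]
      refine Finset.sum_eq_zero fun x _ => ?_
      by_cases h : H.bl x = O
      · simp [h, hO]
      · rw [hη1 x h, zero_mul]
    have e2 : 3 * ∑ x, η x * cw (H.wh x) = -(3 * ∑ w, cw w) := by
      rw [sum_rot H.ω η (fun x => cw (H.wh x)) (fun x => by simp only [H.wh_ω]), ← hw3]
      simp only [hη2, neg_mul, one_mul, Finset.sum_neg_distrib]
    simp only [← hz, mul_sub, Finset.sum_sub_distrib] at e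
    have e3 : ∑ t ∈ K, (if s t = H.β (r t) then η (r t) else - η (s t)) =
        ∑ t ∈ K, a (s t) - ∑ t ∈ K, a (r t) := by
      rw [← Finset.sum_sub_distrib]
      refine Finset.sum_congr rfl fun t _ => ?_
      rcases hcc t with h | h
      · rw [if_neg h.2, h.1, ← ha (s t) (by rw [hs.bl_eq]; exact t.2)]; ring
      · rw [if_pos h.2, h.2, ← ha (r t) (by rw [hr.bl_eq]; exact t.2)]
    have hσ2 : σ * σ = 1 := by rcases hσ with h | h <;> rw [h] <;> norm_num
    rw [← e3, ← e, ← mul_assoc, hσ2]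
    linarith
  refine ⟨2 * Real.sin (θ * (σ * ∑ w, cw w) / 2), ?_, ?_⟩
  · have : 0 < Real.sin (θ * (σ * ∑ w, cw w) / 2) := by
      apply Real.sin_pos_of_pos_of_lt_pi
      · have : 0 < θ * (σ * ∑ w, cw w) := mul_pos hθ (by linarith)
        linarith
      · have : θ * (σ * ∑ w, cw w) ≤ θ * Fintype.card H.W := mul_le_mul_of_nonneg_left hw2 hθ.le
        linarith [Real.pi_gt_three]
    linarith
  · have hσ' : -σ = 1 ∨ -σ = -1 := by rcases hσ with h | h <;> simp [h]
    have p1 : ∀ f : {t // t ≠ O} → H.X,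
        ∏ t ∈ K, Complex.exp (Complex.I * (θ * a (f t) : ℝ)) =
          Complex.exp (Complex.I * ((θ * ∑ t ∈ K, a (f t) : ℝ) : ℂ)) := by
      intro f
      rw [Finset.mul_sum, Complex.ofReal_sum, Finset.mul_sum, Complex.exp_sum]
    rw [Finset.prod_mul_distrib, Finset.prod_mul_distrib (f := fun t => Complex.I * _),
      prod_sign K _ (eps_cases s r), prod_sign K _ (eps_cases r s), h1, h1', exp_three _ hσ,
      exp_three _ hσ', p1, p1]
    have e := two_term σ _ _ _ θ hσ h2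
    have e' : ∑ t ∈ K, (a (r t) + a (s t)) / 2 = (∑ t ∈ K, a (r t) + ∑ t ∈ K, a (s t)) / 2 := by
      rw [← Finset.sum_div, Finset.sum_add_distrib]
    rw [e', ← e]
    push_cast
    ring

theorem group_pos (hB : Basic) (hD : Disk) (hI : Inv) (hc : H.Conn3) (hp : H.Planar)
    {r s : {t // t ≠ O} → H.X} (hr : H.IsState O r) (hs : H.IsState O s)
    (hne : ∀ t, r t ≠ s t)
    {η a : H.X → ℝ} (hη1 : ∀ x, H.bl x ≠ O → η x + η (H.β x) + η (H.β (H.β x)) = 0)
    (hη2 : ∀ x, η x + η (H.ω x) + η (H.ω (H.ω x)) = -1)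
    (ha : ∀ x, H.bl x ≠ O → a (H.β x) - a x = η x) {θ : ℝ} (hθ : 0 < θ)
    (hθW : θ * Fintype.card H.W < 1) {C : ℝ} (hC : ∀ x, |a x| ≤ C)
    (hθC : θ * (Fintype.card {t // t ≠ O} * C) < 1) :
    0 < (∑ p ∈ (PP H O).filter (fun p => key p = key (r, s)),
      ∏ t, (Complex.I * (eps H p.1 p.2 t : ℝ) *
        Complex.exp (Complex.I * (θ * a (p.2 t) : ℝ)))).re := by
  obtain ⟨π, hπ⟩ := exists_perm hr hs
  rw [← group_eq hr hs hne hπ]
  have hinv := hI {t // t ≠ O} π
    (fun t => Complex.I * (eps H s r t : ℝ) * Complex.exp (Complex.I * (θ * a (r t) : ℝ)))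
    (fun t => Complex.I * (eps H r s t : ℝ) * Complex.exp (Complex.I * (θ * a (s t) : ℝ)))
  have hterm : ∀ K : Quotient (Equiv.Perm.SameCycle.setoid π), ∃ ρ : ℝ, 0 < ρ ∧
      ∏ t ∈ univ.filter (fun t => Quotient.mk _ t = K),
        (Complex.I * (eps H s r t : ℝ) * Complex.exp (Complex.I * (θ * a (r t) : ℝ))) +
      ∏ t ∈ univ.filter (fun t => Quotient.mk _ t = K),
        (Complex.I * (eps H r s t : ℝ) * Complex.exp (Complex.I * (θ * a (s t) : ℝ))) =
      (ρ : ℂ) * Complex.exp (Complex.I * ((θ * ∑ t ∈ univ.filter (fun t => Quotient.mk _ t = K),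
        (a (r t) + a (s t)) / 2 : ℝ) : ℂ)) := by
    intro K
    induction K using Quotient.inductionOn with
    | h t₀ =>
      refine cycle_term hB hD hc hp hr hs hne hπ hη1 hη2 ha hθ hθW t₀ _ ?_
      ext t
      simp only [mem_filter, mem_univ, true_and, Quotient.eq]
      exact ⟨fun h => Equiv.Perm.SameCycle.symm h, fun h => Equiv.Perm.SameCycle.symm h⟩
  choose ρ hρ hρe using hterm
  have e1 : ∑ A ∈ (univ : Finset (Finset {t // t ≠ O})).filter (fun A => ∀ t, π t ∈ A ↔ t ∈ A),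
      ∏ t, (Complex.I * (eps H (mix r s A, mix s r A).1 (mix r s A, mix s r A).2 t : ℝ) *
        Complex.exp (Complex.I * (θ * a ((mix r s A, mix s r A).2 t) : ℝ))) =
      ((∏ K, ρ K : ℝ) : ℂ) *
        Complex.exp (Complex.I * ((θ * ∑ t, (a (r t) + a (s t)) / 2 : ℝ) : ℂ)) := by
    have e2 : ∏ K : Quotient (Equiv.Perm.SameCycle.setoid π), ((ρ K : ℂ) *
        Complex.exp (Complex.I * ((θ * ∑ t ∈ univ.filter (fun t => Quotient.mk _ t = K),
          (a (r t) + a (s t)) / 2 : ℝ) : ℂ))) = ((∏ K, ρ K : ℝ) : ℂ) *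
        Complex.exp (Complex.I * ((θ * ∑ t, (a (r t) + a (s t)) / 2 : ℝ) : ℂ)) := by
      rw [Finset.prod_mul_distrib, ← Complex.exp_sum, Complex.ofReal_prod, ← Finset.mul_sum,
        ← Complex.ofReal_sum, ← Finset.mul_sum, Finset.sum_fiberwise]
    rw [← e2]
    simp only [← hρe]
    convert hinv using 2 with A hA
    · ext A; simp
    · refine Finset.prod_congr rfl fun t _ => ?_
      by_cases h : t ∈ A <;> simp [mix, eps, h]
  rw [e1, Complex.re_ofReal_mul, mul_comm Complex.I, Complex.exp_ofReal_mul_I_re]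
  refine mul_pos (Finset.prod_pos fun K _ => hρ K) (Real.cos_pos_of_mem_Ioo ?_)
  have hb : |∑ t, (a (r t) + a (s t)) / 2| ≤ Fintype.card {t // t ≠ O} * C := by
    refine (Finset.abs_sum_le_sum_abs _ _).trans ?_
    have : ∀ t ∈ (univ : Finset {t // t ≠ O}), |(a (r t) + a (s t)) / 2| ≤ C := by
      intro t _
      have h1 := abs_le.1 (hC (r t))
      have h2 := abs_le.1 (hC (s t))
      rw [abs_le]; constructor <;> linarith [h1.1, h1.2, h2.1, h2.2]
    simpa using Finset.sum_le_card_nsmul _ _ _ this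
  have hb' := abs_le.1 hb
  have h1 := mul_le_mul_of_nonneg_left hb'.1 hθ.le
  have h2 := mul_le_mul_of_nonneg_left hb'.2 hθ.le
  constructor <;> nlinarith [Real.pi_gt_three]

end PosAux

open PosAux in
theorem pos (hB : Basic) (hD : Disk) (hI : Inv) : Pos := by
  intro H hc hp O ⟨r0, s0, hr0, hs0, hne0⟩
  obtain ⟨-, -, -, h4⟩ := hB H
  obtain ⟨-, -, -, -, -, h9⟩ := h4 hc
  obtain ⟨η, hη1, hη2⟩ := h9 O
  let a : H.X → ℝ := fun x => (η (H.β (H.β x)) - η x) / 3
  have ha : ∀ x, H.bl x ≠ O → a (H.β x) - a x = η x := by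
    intro x hx
    have := hη1 x hx
    simp only [a, H.β3]
    linarith
  let C : ℝ := ∑ x, |a x|
  have hC : ∀ x, |a x| ≤ C := fun x =>
    Finset.single_le_sum (f := fun x => |a x|) (fun _ _ => abs_nonneg _) (mem_univ x)
  have hC0 : 0 ≤ C := Finset.sum_nonneg fun _ _ => abs_nonneg _
  let N : ℝ := Fintype.card {t // t ≠ O} * C
  have hN : 0 ≤ N := mul_nonneg (Nat.cast_nonneg _) hC0
  have hW : (0 : ℝ) ≤ Fintype.card H.W := Nat.cast_nonneg _
  let θ : ℝ := (N + Fintype.card H.W + 1)⁻¹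
  have hpos : 0 < N + Fintype.card H.W + 1 := by linarith
  have hθ : 0 < θ := inv_pos.2 hpos
  have hθ1 : θ * (N + Fintype.card H.W + 1) = 1 := inv_mul_cancel₀ hpos.ne'
  have hθW : θ * Fintype.card H.W < 1 := by nlinarith [mul_nonneg hθ.le hN]
  have hθC : θ * N < 1 := by nlinarith [mul_nonneg hθ.le hW]
  refine ⟨fun x => θ * a x, fun h0 => ?_⟩
  have hre : 0 < (∑ p ∈ PP H O, ∏ t, (Complex.I * (eps H p.1 p.2 t : ℝ) *
      Complex.exp (Complex.I * (θ * a (p.2 t) : ℝ)))).re := by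
    rw [← Finset.sum_fiberwise_of_maps_to (t := (PP H O).image key) (g := key)
      (fun p hp => mem_image_of_mem _ hp), Complex.re_sum]
    refine Finset.sum_pos (fun k hk => ?_)
      ⟨key (r0, s0), mem_image_of_mem _ (mem_filter.2 ⟨mem_univ _, hr0, hs0, hne0⟩)⟩
    obtain ⟨⟨r, s⟩, hp', rfl⟩ := mem_image.1 hk
    obtain ⟨-, hr, hs, hne⟩ := mem_filter.1 hp'
    exact group_pos hB hD hI hc hp hr hs hne hη1 hη2 ha hθ hθW hC hθC
  have h0' : ∑ p ∈ PP H O, ∏ t, (Complex.I * (eps H p.1 p.2 t : ℝ) *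
      Complex.exp (Complex.I * (θ * a (p.2 t) : ℝ))) = 0 := h0
  rw [h0'] at hre
  simp at hre

end Crest.Agent.R39
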